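import Mathlib

/-! # P097 / disc case / D1d : the Taylor series at the origin is a ring homomorphism -/

set_option linter.all false

open PowerSeries

namespace Vale.Agent.P097.H809D

/-- Taylor series at the origin -/
noncomputable def TS (f : ℂ → ℂ) : PowerSeries ℂ :=
  PowerSeries.mk fun i => ((i.factorial : ℂ))⁻¹ * iteratedDeriv i f 0

theorem coeff_TS (f : ℂ → ℂ) (i : ℕ) :
    PowerSeries.coeff i (TS f) = ((i.factorial : ℂ))⁻¹ * iteratedDeriv i f 0 := by
  simp [TS]

theorem coeff_TS_zero (f : ℂ → ℂ) : PowerSeries.coeff 0 (TS f) = f 0 := by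
  rw [coeff_TS]; simp

theorem coeff_TS_one (f : ℂ → ℂ) : PowerSeries.coeff 1 (TS f) = deriv f 0 := by
  rw [coeff_TS]; simp [iteratedDeriv_one]

theorem TS_congr {f g : ℂ → ℂ} (h : f =ᶠ[nhds 0] g) : TS f = TS g := by
  ext i
  rw [coeff_TS, coeff_TS, h.iteratedDeriv_eq]

theorem TS_add {f g : ℂ → ℂ} (hf : AnalyticAt ℂ f 0) (hg : AnalyticAt ℂ g 0) :
    TS (fun x => f x + g x) = TS f + TS g := by
  ext i
  rw [map_add, coeff_TS, coeff_TS, coeff_TS, ← mul_add]
  congr 1
  exact iteratedDeriv_fun_add hf.contDiffAt hg.contDiffAt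

theorem TS_neg {f : ℂ → ℂ} : TS (fun x => -f x) = -TS f := by
  ext i
  rw [map_neg, coeff_TS, coeff_TS, ← mul_neg]
  congr 1
  simpa using iteratedDeriv_fun_neg i f 0

theorem TS_sub {f g : ℂ → ℂ} (hf : AnalyticAt ℂ f 0) (hg : AnalyticAt ℂ g 0) :
    TS (fun x => f x - g x) = TS f - TS g := by
  have h : (fun x => f x - g x) = fun x => f x + (fun y => -g y) x := by
    funext x; simp [sub_eq_add_neg]
  have hg' : AnalyticAt ℂ (fun y => -g y) 0 := hg.neg
  rw [h, TS_add hf hg', TS_neg, sub_eq_add_neg]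

theorem TS_mul {f g : ℂ → ℂ} (hf : AnalyticAt ℂ f 0) (hg : AnalyticAt ℂ g 0) :
    TS (fun x => f x * g x) = TS f * TS g := by
  ext i
  rw [coeff_TS, PowerSeries.coeff_mul]
  have h := iteratedDeriv_fun_mul (n := i) (hf.contDiffAt (n := i)) (hg.contDiffAt (n := i))
  rw [h, Finset.Nat.sum_antidiagonal_eq_sum_range_succ_mk, Finset.mul_sum]
  refine Finset.sum_congr rfl fun j hj => ?_
  have hj' : j ≤ i := Nat.lt_succ_iff.1 (Finset.mem_range.1 hj)
  rw [coeff_TS, coeff_TS]
  have h1 : ((i.choose j : ℕ) : ℂ) * (j.factorial : ℂ) * ((i - j).factorial : ℂ) = (i.factorial : ℂ) := by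
    exact_mod_cast congrArg (Nat.cast : ℕ → ℂ) (Nat.choose_mul_factorial_mul_factorial hj')
  have h2 : (j.factorial : ℂ) ≠ 0 := by exact_mod_cast j.factorial_ne_zero
  have h3 : ((i - j).factorial : ℂ) ≠ 0 := by exact_mod_cast (i - j).factorial_ne_zero
  have h4 : (i.factorial : ℂ) ≠ 0 := by exact_mod_cast i.factorial_ne_zero
  have h5 : ((i.factorial : ℂ))⁻¹ * (i.choose j : ℂ) = ((j.factorial : ℂ))⁻¹ * (((i - j).factorial : ℂ))⁻¹ := by
    field_simp
    rw [← h1]
  calc _ = (((i.factorial : ℂ))⁻¹ * (i.choose j : ℂ)) * (iteratedDeriv j f 0 * iteratedDeriv (i - j) g 0) := by ring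
    _ = _ := by rw [h5]; ring

theorem TS_const (c : ℂ) : TS (fun _ => c) = PowerSeries.C c := by
  ext i
  rw [coeff_TS, iteratedDeriv_const, PowerSeries.coeff_C]
  split_ifs with h
  · subst h; simp
  · simp

theorem TS_id : TS (fun x => x) = PowerSeries.X := by
  ext i
  rw [coeff_TS, PowerSeries.coeff_X]
  match i with
  | 0 => simp
  | 1 => simp [iteratedDeriv_one]
  | (k + 2) =>
    rw [if_neg (by omega), iteratedDeriv_succ']
    have : deriv (fun x : ℂ => x) = fun _ => (1 : ℂ) := by funext x; simp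
    rw [this, iteratedDeriv_const]; simp

theorem TS_pow {f : ℂ → ℂ} (hf : AnalyticAt ℂ f 0) (m : ℕ) :
    TS (fun x => f x ^ m) = TS f ^ m := by
  induction m with
  | zero => simpa using TS_const 1
  | succ m ih =>
    simp only [pow_succ]
    have h : AnalyticAt ℂ (fun x => f x ^ m) 0 := hf.fun_pow m
    rw [TS_mul h hf, ih]

theorem TS_sum {ι : Type*} (s : Finset ι) {f : ι → ℂ → ℂ} (hf : ∀ i ∈ s, AnalyticAt ℂ (f i) 0) :
    TS (fun x => ∑ i ∈ s, f i x) = ∑ i ∈ s, TS (f i) := by
  classical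
  induction s using Finset.induction_on with
  | empty => simpa using TS_const 0
  | insert i s hi ih =>
    simp only [Finset.sum_insert hi]
    rw [TS_add (hf i (Finset.mem_insert_self i s)) ?_, ih fun j hj => hf j (Finset.mem_insert_of_mem hj)]
    exact Finset.analyticAt_fun_sum _ fun j hj => hf j (Finset.mem_insert_of_mem hj)

/-- the Euler operator multiplies the coefficients by the exponent -/
theorem coeff_TS_euler {f : ℂ → ℂ} (hf : AnalyticAt ℂ f 0) (i : ℕ) :
    PowerSeries.coeff i (TS fun x => x * deriv f x) = i * PowerSeries.coeff i (TS f) := by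
  have h : AnalyticAt ℂ (fun x : ℂ => x) 0 := analyticAt_id
  rw [TS_mul h hf.deriv, TS_id]
  cases i with
  | zero => simp
  | succ i =>
    rw [PowerSeries.coeff_succ_X_mul, coeff_TS, coeff_TS, iteratedDeriv_succ', Nat.factorial_succ]
    have h2 : ((i + 1 : ℕ) : ℂ) ≠ 0 := by exact_mod_cast Nat.succ_ne_zero i
    push_cast at h2 ⊢
    field_simp

/-- rescaling of the variable -/
theorem coeff_TS_scale {f : ℂ → ℂ} (hf : AnalyticAt ℂ f 0) (c : ℂ) (i : ℕ) :
    PowerSeries.coeff i (TS fun x => f (c * x)) = c ^ i * PowerSeries.coeff i (TS f) := by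
  induction i generalizing f with
  | zero => simp [coeff_TS]
  | succ i ih =>
    have h1 : (fun x => deriv (fun y => f (c * y)) x) = fun x => c * (deriv f) (c * x) := by
      funext x; rw [deriv_comp_mul_left]; simp
    have h2 := ih hf.deriv
    rw [coeff_TS] at h2 ⊢
    rw [coeff_TS] at h2 ⊢
    rw [iteratedDeriv_succ', iteratedDeriv_succ', Nat.factorial_succ]
    have h3 : iteratedDeriv i (deriv fun y => f (c * y)) 0 = c * iteratedDeriv i (fun x => (deriv f) (c * x)) 0 := by
      rw [show (deriv fun y => f (c * y)) = fun x => c * (deriv f) (c * x) from h1]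
      exact iteratedDeriv_const_mul_field c _
    rw [h3]
    have h4 : ((i.factorial : ℕ) : ℂ) ≠ 0 := by exact_mod_cast i.factorial_ne_zero
    have h5 : ((i + 1 : ℕ) : ℂ) ≠ 0 := by exact_mod_cast Nat.succ_ne_zero i
    have h6 : iteratedDeriv i (fun x => (deriv f) (c * x)) 0 = c ^ i * iteratedDeriv i (deriv f) 0 := by
      have := congrArg (fun t => (i.factorial : ℂ) * t) h2
      field_simp at this
      exact this
    rw [h6]; ring

end Vale.Agent.P097.H809D
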