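import Vale.Agent.P097.Disc.Defs
import Vale.Agent.P097.H809D.TS

/-! # P097 / disc case / D1d : constant critical values give formal closed orbits -/

set_option linter.all false

open PowerSeries Filter Topology

namespace Vale.Agent.P097.H809D

open Vale.Agent.P097.Disc

/-- `H (w) = ∑_{m ≤ r} a m w ^ m` -/
noncomputable def HH (a : ℕ → ℂ) (r : ℕ) (w : ℂ) : ℂ := ∑ m ∈ Finset.range (r + 1), a m * w ^ m

/-- `D H (w) = ∑_{m ≤ r} m a m w ^ m` -/
noncomputable def DH (a : ℕ → ℂ) (r : ℕ) (w : ℂ) : ℂ :=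
  ∑ m ∈ Finset.range (r + 1), (m : ℂ) * a m * w ^ m

section

variable (a : ℕ → ℂ) (r : ℕ) (Y : ℕ → ℂ → ℂ)

/-- normal angle of the bounce number `j` -/
noncomputable def ps (j : ℕ) (X : ℂ) : ℂ := (Y j X + Y (j + 1) X) / 2

/-- angle with the boundary -/
noncomputable def dl (j : ℕ) (X : ℂ) : ℂ := (Y (j + 1) X - Y j X) / 2

/-- complexified bounce -/
noncomputable def wj (j : ℕ) (X : ℂ) : ℂ := X * Complex.exp (Complex.I * ps Y j X)

/-- support value of the outgoing line -/
noncomputable def pout (j : ℕ) (X : ℂ) : ℂ :=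
  HH a r (wj Y j X) * Complex.cos (dl Y j X) + Complex.I * DH a r (wj Y j X) * Complex.sin (dl Y j X)

/-- support value of the incoming line -/
noncomputable def pin (j : ℕ) (X : ℂ) : ℂ :=
  HH a r (wj Y j X) * Complex.cos (dl Y j X) - Complex.I * DH a r (wj Y j X) * Complex.sin (dl Y j X)

/-- value of the action -/
noncomputable def act (n : ℕ) (X : ℂ) : ℂ :=
  ∑ j ∈ Finset.range n, 2 * HH a r (wj Y j X) * Complex.sin (dl Y j X)

end

theorem HH_an (a : ℕ → ℂ) (r : ℕ) (w : ℂ) : AnalyticAt ℂ (HH a r) w := by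
  unfold HH
  exact Finset.analyticAt_fun_sum _ fun m _ => analyticAt_const.mul (analyticAt_id.fun_pow m)

theorem DH_an (a : ℕ → ℂ) (r : ℕ) (w : ℂ) : AnalyticAt ℂ (DH a r) w := by
  unfold DH
  exact Finset.analyticAt_fun_sum _ fun m _ => analyticAt_const.mul (analyticAt_id.fun_pow m)

/-- `w H'(w) = D H (w)` -/
theorem HH_hasDerivAt (a : ℕ → ℂ) (r : ℕ) (w : ℂ) :
    ∃ H' : ℂ, HasDerivAt (HH a r) H' w ∧ w * H' = DH a r w := by
  refine ⟨∑ m ∈ Finset.range (r + 1), a m * (m * w ^ (m - 1)), ?_, ?_⟩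
  · unfold HH
    exact HasDerivAt.fun_sum fun m _ => (hasDerivAt_pow m w).const_mul (a m)
  · unfold DH
    rw [Finset.mul_sum]
    refine Finset.sum_congr rfl fun m _ => ?_
    cases m with
    | zero => simp
    | succ m => simp [pow_succ]; ring

section

variable {a : ℕ → ℂ} {r n p : ℕ} {Y : ℕ → ℂ → ℂ}

theorem ps_an {x : ℂ} {j : ℕ} (h : AnalyticAt ℂ (Y j) x) (h' : AnalyticAt ℂ (Y (j + 1)) x) :
    AnalyticAt ℂ (ps Y j) x := by
  unfold ps; exact (h.fun_add h').fun_div analyticAt_const (by norm_num)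

theorem dl_an {x : ℂ} {j : ℕ} (h : AnalyticAt ℂ (Y j) x) (h' : AnalyticAt ℂ (Y (j + 1)) x) :
    AnalyticAt ℂ (dl Y j) x := by
  unfold dl; exact (h'.fun_sub h).fun_div analyticAt_const (by norm_num)

theorem wj_an {x : ℂ} {j : ℕ} (h : AnalyticAt ℂ (Y j) x) (h' : AnalyticAt ℂ (Y (j + 1)) x) :
    AnalyticAt ℂ (wj Y j) x := by
  unfold wj; exact analyticAt_id.fun_mul (analyticAt_const.fun_mul (ps_an h h')).cexp'

theorem ccos_an {f : ℂ → ℂ} {x : ℂ} (h : AnalyticAt ℂ f x) :
    AnalyticAt ℂ (fun X => Complex.cos (f X)) x :=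
  (Complex.differentiable_cos.analyticAt (f x)).comp' h

theorem csin_an {f : ℂ → ℂ} {x : ℂ} (h : AnalyticAt ℂ f x) :
    AnalyticAt ℂ (fun X => Complex.sin (f X)) x :=
  (Complex.differentiable_sin.analyticAt (f x)).comp' h

theorem hw_an {x : ℂ} {j : ℕ} (h : AnalyticAt ℂ (Y j) x) (h' : AnalyticAt ℂ (Y (j + 1)) x) :
    AnalyticAt ℂ (fun X => HH a r (wj Y j X)) x :=
  (HH_an a r (wj Y j x)).comp' (wj_an h h')

theorem dw_an {x : ℂ} {j : ℕ} (h : AnalyticAt ℂ (Y j) x) (h' : AnalyticAt ℂ (Y (j + 1)) x) :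
    AnalyticAt ℂ (fun X => DH a r (wj Y j X)) x :=
  (DH_an a r (wj Y j x)).comp' (wj_an h h')

theorem pout_an {x : ℂ} {j : ℕ} (h : AnalyticAt ℂ (Y j) x) (h' : AnalyticAt ℂ (Y (j + 1)) x) :
    AnalyticAt ℂ (pout a r Y j) x := by
  unfold pout
  exact ((hw_an h h').fun_mul (ccos_an (dl_an h h'))).fun_add
    ((analyticAt_const.fun_mul (dw_an h h')).fun_mul (csin_an (dl_an h h')))

theorem pin_an {x : ℂ} {j : ℕ} (h : AnalyticAt ℂ (Y j) x) (h' : AnalyticAt ℂ (Y (j + 1)) x) :
    AnalyticAt ℂ (pin a r Y j) x := by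
  unfold pin
  exact ((hw_an h h').fun_mul (ccos_an (dl_an h h'))).fun_sub
    ((analyticAt_const.fun_mul (dw_an h h')).fun_mul (csin_an (dl_an h h')))

/-- one term of the Noether identity -/
theorem act_term {x : ℂ} {j : ℕ} {d d' : ℂ} (h : HasDerivAt (Y j) d x)
    (h' : HasDerivAt (Y (j + 1)) d' x) :
    ∃ T : ℂ, HasDerivAt (fun X => 2 * HH a r (wj Y j X) * Complex.sin (dl Y j X)) T x ∧
      x * T = -Complex.I * (pout a r Y j x - pin a r Y j x) +
        x * (d' * pout a r Y j x - d * pin a r Y j x) := by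
  have hps : HasDerivAt (ps Y j) ((d + d') / 2) x := by
    unfold ps; exact (h.add h').div_const 2
  have hdl : HasDerivAt (dl Y j) ((d' - d) / 2) x := by
    unfold dl; exact (h'.sub h).div_const 2
  have hw : HasDerivAt (wj Y j) (1 * Complex.exp (Complex.I * ps Y j x) +
      x * (Complex.exp (Complex.I * ps Y j x) * (Complex.I * ((d + d') / 2)))) x := by
    unfold wj
    exact (hasDerivAt_id x).mul ((hps.const_mul Complex.I).cexp)
  obtain ⟨H', hH, hH'⟩ := HH_hasDerivAt a r (wj Y j x)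
  have h1 := (((hH.comp x hw).const_mul 2).mul hdl.csin)
  refine ⟨_, h1, ?_⟩
  have hI : Complex.I * Complex.I = -1 := Complex.I_mul_I
  have e1 : x * (H' * (1 * Complex.exp (Complex.I * ps Y j x) +
      x * (Complex.exp (Complex.I * ps Y j x) * (Complex.I * ((d + d') / 2))))) =
      DH a r (wj Y j x) * (1 + Complex.I * x * ((d + d') / 2)) := by
    rw [← hH']; unfold wj; ring
  simp only [pout, pin, Function.comp]
  linear_combination (2 * Complex.sin (dl Y j x)) * e1 +
    (2 * DH a r (wj Y j x) * Complex.sin (dl Y j x)) * hI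

/-- the hypotheses: critical configuration with ends `0` and `2πp` -/
structure Crit (a : ℕ → ℂ) (r n p : ℕ) (Y : ℕ → ℂ → ℂ) : Prop where
  an : ∀ j ≤ n, AnalyticAt ℂ (Y j) 0
  first : ∀ᶠ X in 𝓝 (0 : ℂ), Y 0 X = 0
  last : ∀ᶠ X in 𝓝 (0 : ℂ), Y n X = 2 * Real.pi * p
  reg : ∀ j ≤ n, Y j 0 = 2 * Real.pi * p * j / n
  el : ∀ j, j + 1 < n → ∀ᶠ X in 𝓝 (0 : ℂ), pout a r Y j X = pin a r Y (j + 1) X

theorem act_an (h : Crit a r n p Y) : AnalyticAt ℂ (act a r Y n) 0 := by
  unfold act
  refine Finset.analyticAt_fun_sum _ fun j hj => ?_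
  have hj' := Finset.mem_range.1 hj
  exact (analyticAt_const.fun_mul (hw_an (h.an j hj'.le) (h.an (j + 1) hj'))).fun_mul
    (csin_an (dl_an (h.an j hj'.le) (h.an (j + 1) hj')))

/-- Noether: `X M'(X) = -i (p_out (n-1) - p_in 0)` -/
theorem noether (h : Crit a r (n + 1) p Y) :
    ∀ᶠ X in 𝓝 (0 : ℂ), X * deriv (act a r Y (n + 1)) X =
      -Complex.I * (pout a r Y n X - pin a r Y 0 X) := by
  have hY : ∀ᶠ X in 𝓝 (0 : ℂ), ∀ j ≤ n + 1, AnalyticAt ℂ (Y j) X := by
    have : ∀ j ∈ Finset.range (n + 2), ∀ᶠ X in 𝓝 (0 : ℂ), AnalyticAt ℂ (Y j) X := fun j hj =>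
      (h.an j (by have := Finset.mem_range.1 hj; omega)).eventually_analyticAt
    filter_upwards [(Finset.eventually_all _).2 this] with X hX j hj
    exact hX j (Finset.mem_range.2 (by omega))
  have hel : ∀ᶠ X in 𝓝 (0 : ℂ), ∀ j < n, pout a r Y j X = pin a r Y (j + 1) X := by
    have : ∀ j ∈ Finset.range n, ∀ᶠ X in 𝓝 (0 : ℂ), pout a r Y j X = pin a r Y (j + 1) X :=
      fun j hj => h.el j (by have := Finset.mem_range.1 hj; omega)
    filter_upwards [(Finset.eventually_all _).2 this] with X hX j hj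
    exact hX j (Finset.mem_range.2 hj)
  filter_upwards [hY, hel, h.first.eventually_nhds, h.last.eventually_nhds] with X hX hE h0 h1
  have hd0 : deriv (Y 0) X = 0 := by
    have : Y 0 =ᶠ[𝓝 X] fun _ => (0 : ℂ) := h0
    rw [this.deriv_eq]; simp
  have hd1 : deriv (Y (n + 1)) X = 0 := by
    have : Y (n + 1) =ᶠ[𝓝 X] fun _ => (2 * Real.pi * p : ℂ) := h1
    rw [this.deriv_eq]; simp
  have hT : ∀ j, j ≤ n → ∃ T : ℂ,
      HasDerivAt (fun X => 2 * HH a r (wj Y j X) * Complex.sin (dl Y j X)) T X ∧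
      X * T = -Complex.I * (pout a r Y j X - pin a r Y j X) +
        X * (deriv (Y (j + 1)) X * pout a r Y j X - deriv (Y j) X * pin a r Y j X) := fun j hj =>
    act_term ((hX j (by omega)).differentiableAt.hasDerivAt)
      ((hX (j + 1) (by omega)).differentiableAt.hasDerivAt)
  choose! T hT1 hT2 using hT
  have hD : HasDerivAt (act a r Y (n + 1)) (∑ j ∈ Finset.range (n + 1), T j) X := by
    unfold act
    exact HasDerivAt.fun_sum fun j hj => hT1 j (by have := Finset.mem_range.1 hj; omega)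
  rw [hD.deriv, Finset.mul_sum]
  have key : ∀ m ≤ n, ∑ j ∈ Finset.range (m + 1), X * T j =
      -Complex.I * (pout a r Y m X - pin a r Y 0 X) + X * (deriv (Y (m + 1)) X * pout a r Y m X) := by
    intro m
    induction m with
    | zero =>
      intro _
      rw [Finset.sum_range_one, hT2 0 (by omega), hd0]; ring
    | succ m ih =>
      intro hm
      rw [Finset.sum_range_succ, ih (by omega), hT2 (m + 1) hm, hE m (by omega)]; ring
  rw [key n le_rfl, hd1]; ring

/-! ### the formal orbit -/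

theorem evA_TS {f : ℂ → ℂ} (hf : AnalyticAt ℂ f 0) :
    evA a r (TS f) = TS fun X => ∑ m ∈ Finset.range (r + 1), Ac a m * f X ^ m := by
  unfold evA
  rw [TS_sum]
  · refine Finset.sum_congr rfl fun m _ => ?_
    rw [TS_mul analyticAt_const (hf.fun_pow m), TS_const, TS_pow hf]
  · exact fun m _ => analyticAt_const.fun_mul (hf.fun_pow m)

theorem evB_TS {f : ℂ → ℂ} (hf : AnalyticAt ℂ f 0) :
    evB a r (TS f) = TS fun X => ∑ m ∈ Finset.range (r + 1), Bc a m * f X ^ m := by
  unfold evB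
  rw [TS_sum]
  · refine Finset.sum_congr rfl fun m _ => ?_
    rw [TS_mul analyticAt_const (hf.fun_pow m), TS_const, TS_pow hf]
  · exact fun m _ => analyticAt_const.fun_mul (hf.fun_pow m)

theorem sum_Ac (w : ℂ) : ∑ m ∈ Finset.range (r + 1), Ac a m * w ^ m = (HH a r w + DH a r w) / 2 := by
  unfold HH DH Ac
  rw [← Finset.sum_add_distrib, Finset.sum_div]
  exact Finset.sum_congr rfl fun m _ => by ring

theorem sum_Bc (w : ℂ) : ∑ m ∈ Finset.range (r + 1), Bc a m * w ^ m = (HH a r w - DH a r w) / 2 := by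
  unfold HH DH Bc
  rw [← Finset.sum_sub_distrib, Finset.sum_div]
  exact Finset.sum_congr rfl fun m _ => by ring

theorem exp_cos (δ : ℂ) : Complex.exp (Complex.I * δ) * Complex.cos δ =
    (Complex.exp (Complex.I * δ) ^ 2 + 1) / 2 := by
  rw [Complex.cos, mul_comm δ Complex.I, neg_mul, mul_comm δ Complex.I]
  have : Complex.exp (Complex.I * δ) * Complex.exp (-(Complex.I * δ)) = 1 := by
    rw [← Complex.exp_add]; simp
  linear_combination this / 2

theorem exp_sin (δ : ℂ) : Complex.exp (Complex.I * δ) * (Complex.I * Complex.sin δ) =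
    (Complex.exp (Complex.I * δ) ^ 2 - 1) / 2 := by
  rw [Complex.sin, mul_comm δ Complex.I, neg_mul, mul_comm δ Complex.I]
  have : Complex.exp (Complex.I * δ) * Complex.exp (-(Complex.I * δ)) = 1 := by
    rw [← Complex.exp_add]; simp
  have hI := Complex.I_mul_I
  linear_combination (-1 / 2) * this +
    (Complex.exp (Complex.I * δ) * (Complex.exp (-(Complex.I * δ)) - Complex.exp (Complex.I * δ)) / 2) * hI

theorem out_eq (j : ℕ) (X : ℂ) :
    (HH a r (wj Y j X) + DH a r (wj Y j X)) / 2 * Complex.exp (Complex.I * dl Y j X) ^ 2 +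
      (HH a r (wj Y j X) - DH a r (wj Y j X)) / 2 =
    Complex.exp (Complex.I * dl Y j X) * pout a r Y j X := by
  unfold pout
  have h1 := exp_cos (dl Y j X)
  have h2 := exp_sin (dl Y j X)
  linear_combination (-HH a r (wj Y j X)) * h1 - DH a r (wj Y j X) * h2

theorem in_eq (j : ℕ) (X : ℂ) :
    (HH a r (wj Y j X) + DH a r (wj Y j X)) / 2 +
      (HH a r (wj Y j X) - DH a r (wj Y j X)) / 2 * Complex.exp (Complex.I * dl Y j X) ^ 2 =
    Complex.exp (Complex.I * dl Y j X) * pin a r Y j X := by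
  unfold pin
  have h1 := exp_cos (dl Y j X)
  have h2 := exp_sin (dl Y j X)
  linear_combination (-HH a r (wj Y j X)) * h1 + DH a r (wj Y j X) * h2

theorem EqM_of_eq {f g : PowerSeries ℂ} (h : f = g) : EqM r f g := fun i _ => by rw [h]

theorem EqM_mul {f g : PowerSeries ℂ} (h : EqM r f g) (c : PowerSeries ℂ) : EqM r (c * f) (c * g) := by
  intro i hi
  rw [PowerSeries.coeff_mul, PowerSeries.coeff_mul]
  refine Finset.sum_congr rfl fun q hq => ?_
  have := Finset.HasAntidiagonal.mem_antidiagonal.1 hq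
  rw [h q.2 (by omega)]

end

/-- [d3] constant critical values give formal closed orbits -/
theorem orb_of_const {a : ℕ → ℂ} {r n p : ℕ} {Y : ℕ → ℂ → ℂ} (ha : a 0 = 1) (hn : 1 ≤ n)
    (h : Crit a r n p Y)
    (hM : ∀ k, 1 ≤ k → k ≤ r → PowerSeries.coeff k (TS (act a r Y n)) = 0) :
    Orb a (Complex.exp (Complex.I * (Real.pi * p / n))) n r := by
  obtain ⟨n, rfl⟩ : ∃ m, n = m + 1 := ⟨n - 1, by omega⟩
  set κ : ℂ := Complex.exp (-(Complex.I * (Real.pi * p / (n + 1 : ℕ)))) with hκ
  set s : ℂ := Complex.exp (Complex.I * (Real.pi * p / (n + 1 : ℕ))) with hs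
  have hκs : κ * s = 1 := by rw [hκ, hs, ← Complex.exp_add]; simp
  have hn0 : ((n + 1 : ℕ) : ℂ) ≠ 0 := by exact_mod_cast Nat.succ_ne_zero n
  -- scaled functions are analytic
  have hsc : ∀ {f : ℂ → ℂ}, AnalyticAt ℂ f 0 → AnalyticAt ℂ (fun X => f (κ * X)) 0 := by
    intro f hf
    have h1 : AnalyticAt ℂ (fun X : ℂ => κ * X) 0 := analyticAt_const.fun_mul analyticAt_id
    exact AnalyticAt.comp' (by simpa using hf) h1
  have htk : Tendsto (fun X : ℂ => κ * X) (𝓝 0) (𝓝 0) := by
    have : Continuous fun X : ℂ => κ * X := continuous_const.mul continuous_id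
    simpa using this.tendsto 0
  set id' : ℕ → ℕ := fun j => if j = n + 1 then 0 else j with hid
  have hidle : ∀ j ≤ n + 1, id' j ≤ n := by
    intro j hj; simp only [hid]; split_ifs <;> omega
  have hidlt : ∀ j ≤ n, id' j = j := by
    intro j hj; simp only [hid]; rw [if_neg (by omega)]
  have hidn : id' (n + 1) = 0 := by simp [hid]
  have han : ∀ j ≤ n, AnalyticAt ℂ (Y j) 0 ∧ AnalyticAt ℂ (Y (j + 1)) 0 := fun j hj =>
    ⟨h.an j (by omega), h.an (j + 1) (by omega)⟩
  set zf : ℕ → ℂ → ℂ := fun j X => wj Y (id' j) (κ * X) with hzf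
  set xf : ℕ → ℂ → ℂ := fun j X => Complex.exp (Complex.I * dl Y (id' j) (κ * X)) with hxf
  have hza : ∀ j ≤ n + 1, AnalyticAt ℂ (zf j) 0 := fun j hj =>
    hsc (wj_an (han _ (hidle j hj)).1 (han _ (hidle j hj)).2)
  have hxa : ∀ j ≤ n + 1, AnalyticAt ℂ (xf j) 0 := fun j hj =>
    hsc (f := fun X => Complex.exp (Complex.I * dl Y (id' j) X))
      ((analyticAt_const.fun_mul (dl_an (han _ (hidle j hj)).1 (han _ (hidle j hj)).2)).cexp')
  have hdl0 : ∀ j ≤ n, dl Y j 0 = Real.pi * p / (n + 1 : ℕ) := by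
    intro j hj
    unfold dl
    rw [h.reg j (by omega), h.reg (j + 1) (by omega)]
    push_cast
    field_simp
    ring
  have hps0 : ps Y 0 0 = Real.pi * p / (n + 1 : ℕ) := by
    unfold ps
    rw [h.reg 0 (by omega), h.reg 1 (by omega)]
    push_cast
    field_simp
    ring
  -- the defect
  have hdef : ∀ i ≤ r, PowerSeries.coeff i (TS fun X => pout a r Y n X - pin a r Y 0 X) = 0 := by
    intro i hi
    have h1 := coeff_TS_euler (act_an h) i
    rw [TS_congr (noether h)] at h1
    have hpa : AnalyticAt ℂ (fun X => pout a r Y n X - pin a r Y 0 X) 0 :=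
      (pout_an (han n le_rfl).1 (han n le_rfl).2).fun_sub (pin_an (han 0 (by omega)).1 (han 0 (by omega)).2)
    rw [TS_mul analyticAt_const hpa, TS_const, PowerSeries.coeff_C_mul] at h1
    have h2 : (i : ℂ) * PowerSeries.coeff i (TS (act a r Y (n + 1))) = 0 := by
      rcases Nat.eq_zero_or_pos i with h0 | h0
      · subst h0; simp
      · rw [hM i h0 hi, mul_zero]
    rw [h2] at h1
    have hI : (-Complex.I) ≠ 0 := neg_ne_zero.2 Complex.I_ne_zero
    exact (mul_eq_zero.1 h1).resolve_left hI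
  refine ⟨fun j => TS (zf j), fun j => TS (xf j), ?_, ?_, ?_, ?_, ?_⟩
  · intro j hj
    rw [coeff_TS_zero, coeff_TS_zero]
    constructor
    · simp [hzf, wj]
    · simp only [hxf, mul_zero]
      rw [hdl0 _ (hidle j hj)]
  · rw [coeff_TS_one]
    have h0 : id' 0 = 0 := by simp [hid]
    have h1 : HasDerivAt (zf 0) (κ * s) 0 := by
      simp only [hzf, h0]
      have hp : HasDerivAt (ps Y 0) (deriv (ps Y 0) 0) (κ * 0) := by
        simpa using ((ps_an (han 0 (by omega)).1 (han 0 (by omega)).2).differentiableAt.hasDerivAt)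
      have hk : HasDerivAt (fun X : ℂ => κ * X) (κ * 1) 0 := (hasDerivAt_id 0).const_mul κ
      have hpk : HasDerivAt (fun X => ps Y 0 (κ * X)) (deriv (ps Y 0) 0 * (κ * 1)) 0 := hp.comp 0 hk
      have h3 := hk.fun_mul ((hpk.const_mul Complex.I).cexp)
      have h4 : κ * 1 * Complex.exp (Complex.I * ps Y 0 (κ * 0)) +
          κ * 0 * (Complex.exp (Complex.I * ps Y 0 (κ * 0)) * (Complex.I * (deriv (ps Y 0) 0 * (κ * 1)))) =
          κ * s := by
        rw [mul_zero, zero_mul, add_zero, mul_one, hps0]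
      rw [h4] at h3
      exact h3
    rw [h1.deriv, hκs]
  · intro j hj
    constructor
    · apply EqM_of_eq
      rw [← TS_mul (hza j (by omega)) (hxa j (by omega)),
        ← TS_mul ((hza j (by omega)).fun_mul (hxa j (by omega))) (hxa (j + 1) (by omega))]
      apply TS_congr
      have hj1 : id' j = j := hidlt j (by omega)
      rcases Nat.lt_or_ge j n with hjn | hjn
      · have hj2 : id' (j + 1) = j + 1 := hidlt (j + 1) (by omega)
        refine Eventually.of_forall fun X => ?_
        simp only [hzf, hxf, hj1, hj2, wj, mul_assoc, ← Complex.exp_add]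
        congr 3
        unfold ps dl; ring
      · have hjn' : j = n := by omega
        subst hjn'
        have e1 := htk.eventually h.first
        have e2 := htk.eventually h.last
        filter_upwards [e1, e2] with X hX1 hX2
        simp only [hzf, hxf, hj1, hidn, wj, mul_assoc, ← Complex.exp_add]
        congr 1
        congr 1
        have : Complex.I * ps Y j (κ * X) + Complex.I * dl Y j (κ * X) + Complex.I * dl Y 0 (κ * X) =
            Complex.I * ps Y 0 (κ * X) + (p : ℤ) * (2 * Real.pi * Complex.I) := by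
          unfold ps dl; rw [hX1, hX2]; push_cast; ring
        rw [this, Complex.exp_add, Complex.exp_int_mul_two_pi_mul_I, mul_one]
    · have hA : ∀ j ≤ n + 1, (evA a r (TS (zf j)) * TS (xf j) ^ 2 + evB a r (TS (zf j))) =
          TS (xf j) * TS fun X => pout a r Y (id' j) (κ * X) := by
        intro j hj
        have q1 : AnalyticAt ℂ (fun X => ∑ m ∈ Finset.range (r + 1), Ac a m * zf j X ^ m) 0 :=
          Finset.analyticAt_fun_sum _ fun m _ => analyticAt_const.fun_mul ((hza j hj).fun_pow m)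
        have q2 : AnalyticAt ℂ (fun X => ∑ m ∈ Finset.range (r + 1), Bc a m * zf j X ^ m) 0 :=
          Finset.analyticAt_fun_sum _ fun m _ => analyticAt_const.fun_mul ((hza j hj).fun_pow m)
        have q3 : AnalyticAt ℂ (fun X => pout a r Y (id' j) (κ * X)) 0 :=
          hsc (pout_an (han _ (hidle j hj)).1 (han _ (hidle j hj)).2)
        rw [evA_TS (hza j hj), evB_TS (hza j hj), ← TS_pow (hxa j hj),
          ← TS_mul q1 ((hxa j hj).fun_pow 2), ← TS_add (q1.fun_mul ((hxa j hj).fun_pow 2)) q2,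
          ← TS_mul (hxa j hj) q3]
        congr 1
        funext X
        rw [sum_Ac, sum_Bc]
        simp only [hzf, hxf]
        exact out_eq (id' j) (κ * X)
      have hB : ∀ j ≤ n + 1, (evA a r (TS (zf j)) + evB a r (TS (zf j)) * TS (xf j) ^ 2) =
          TS (xf j) * TS fun X => pin a r Y (id' j) (κ * X) := by
        intro j hj
        have q1 : AnalyticAt ℂ (fun X => ∑ m ∈ Finset.range (r + 1), Ac a m * zf j X ^ m) 0 :=
          Finset.analyticAt_fun_sum _ fun m _ => analyticAt_const.fun_mul ((hza j hj).fun_pow m)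
        have q2 : AnalyticAt ℂ (fun X => ∑ m ∈ Finset.range (r + 1), Bc a m * zf j X ^ m) 0 :=
          Finset.analyticAt_fun_sum _ fun m _ => analyticAt_const.fun_mul ((hza j hj).fun_pow m)
        have q3 : AnalyticAt ℂ (fun X => pin a r Y (id' j) (κ * X)) 0 :=
          hsc (pin_an (han _ (hidle j hj)).1 (han _ (hidle j hj)).2)
        rw [evA_TS (hza j hj), evB_TS (hza j hj), ← TS_pow (hxa j hj),
          ← TS_mul q2 ((hxa j hj).fun_pow 2), ← TS_add q1 (q2.fun_mul ((hxa j hj).fun_pow 2)),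
          ← TS_mul (hxa j hj) q3]
        congr 1
        funext X
        rw [sum_Ac, sum_Bc]
        simp only [hzf, hxf]
        exact in_eq (id' j) (κ * X)
      show EqM r ((evA a r (TS (zf j)) * TS (xf j) ^ 2 + evB a r (TS (zf j))) * TS (xf (j + 1)))
        ((evA a r (TS (zf (j + 1))) + evB a r (TS (zf (j + 1))) * TS (xf (j + 1)) ^ 2) * TS (xf j))
      rw [hA j (by omega), hB (j + 1) (by omega)]
      have hj1 : id' j = j := hidlt j (by omega)
      have hcore : EqM r (TS fun X => pout a r Y (id' j) (κ * X))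
          (TS fun X => pin a r Y (id' (j + 1)) (κ * X)) := by
        rcases Nat.lt_or_ge j n with hjn | hjn
        · apply EqM_of_eq
          apply TS_congr
          have hj2 : id' (j + 1) = j + 1 := hidlt (j + 1) (by omega)
          rw [hj1, hj2]
          exact htk.eventually (h.el j (by omega))
        · have hjn' : j = n := by omega
          subst hjn'
          rw [hj1, hidn]
          intro i hi
          have hpa : AnalyticAt ℂ (fun X => pout a r Y j X - pin a r Y 0 X) 0 :=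
            (pout_an (han j le_rfl).1 (han j le_rfl).2).fun_sub
              (pin_an (han 0 (by omega)).1 (han 0 (by omega)).2)
          have h1 := coeff_TS_scale hpa κ i
          rw [hdef i hi, mul_zero, TS_sub (hsc (pout_an (han j le_rfl).1 (han j le_rfl).2))
            (hsc (pin_an (han 0 (by omega)).1 (han 0 (by omega)).2)), map_sub] at h1
          exact sub_eq_zero.1 h1
      have := EqM_mul hcore (TS (xf j) * TS (xf (j + 1)))
      intro i hi
      have h2 := this i hi
      convert h2 using 2 <;> ring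
  · apply EqM_of_eq; simp only [hzf, hidn]; simp [hid]
  · apply EqM_of_eq; simp only [hxf, hidn]; simp [hid]

end Vale.Agent.P097.H809D
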