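import Vale.Agent.P097.D1G.Cau

/-! # P097 / disc case / D1e : on one-sided sequences a functional of weight `m` depends only on
the coefficients `≤ m` (helper809) -/

set_option linter.all false

open Filter Topology Metric

namespace Vale.Agent.P097.H809D

open D1G (Fun Sm nm rot os tr)

section
variable {b R M : ℝ} {m : ℕ} {L : ℂ} {F : (ℤ → ℂ) → ℂ}

theorem norm_rot_le {a : ℤ → ℂ} (h0 : ∀ k < 0, a k = 0) {l : ℝ} (hl : 0 < l) (hl1 : l ≤ 1) (k : ℤ) :
    ‖rot (l : ℂ) a k‖ ≤ ‖a k‖ := by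
  unfold D1G.rot
  rcases lt_or_ge k 0 with hk | hk
  · rw [h0 k hk]; simp
  · obtain ⟨n, rfl⟩ := Int.eq_ofNat_of_zero_le hk
    rw [norm_mul]
    have : ‖(l : ℂ) ^ ((n : ℕ) : ℤ)‖ ≤ 1 := by
      rw [zpow_natCast, norm_pow, Complex.norm_real, Real.norm_of_nonneg hl.le]
      exact pow_le_one₀ hl.le hl1
    calc _ ≤ 1 * ‖a n‖ := mul_le_mul_of_nonneg_right this (norm_nonneg _)
      _ = _ := one_mul _

theorem norm_rot_le' {a : ℤ → ℂ} (h0 : ∀ k : ℤ, k ≤ m → a k = 0) {l : ℝ} (hl : 0 < l) (hl1 : l ≤ 1)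
    (k : ℤ) : ‖rot (l : ℂ) a k‖ ≤ ‖(((l : ℂ) ^ (m + 1)) • a) k‖ := by
  rw [Pi.smul_apply, smul_eq_mul]
  unfold D1G.rot
  rcases le_or_gt k m with hk | hk
  · rw [h0 k hk]; simp
  · obtain ⟨n, rfl⟩ := Int.eq_ofNat_of_zero_le (show 0 ≤ k by omega)
    rw [norm_mul, norm_mul]
    refine mul_le_mul_of_nonneg_right ?_ (norm_nonneg _)
    rw [zpow_natCast, norm_pow, norm_pow, Complex.norm_real, Real.norm_of_nonneg hl.le]
    exact pow_le_pow_of_le_one hl.le hl1 (by omega)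

theorem trunc (hF : Fun b R M m L F) {a a' : ℤ → ℂ} (ha : Sm b a) (ha' : Sm b a')
    (hn : nm b a ≤ R / 8) (hn' : nm b a' ≤ R / 8) (h0 : ∀ k < 0, a k = 0) (h0' : ∀ k < 0, a' k = 0)
    (h : ∀ k : ℤ, k ≤ m → a k = a' k) : F a = F a' := by
  have hR := hF.hR
  have hM := hF.hM
  set u := a' - a with hu
  have hus : Sm b u := ha'.sub ha
  have hun : nm b u ≤ R / 4 := by
    have := D1G.nm_sub_le ha' ha
    linarith
  have hu0 : ∀ k : ℤ, k ≤ m → u k = 0 := by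
    intro k hk
    rw [hu, Pi.sub_apply, h k hk, sub_self]
  have key : ∀ l : ℝ, 0 < l → l ≤ 1 → ‖F a' - F a‖ ≤ 4 * M / R * nm b u * l := by
    intro l hl hl1
    have hlc : (l : ℂ) ≠ 0 := Complex.ofReal_ne_zero.2 hl.ne'
    have r1 : Sm b (rot (l : ℂ) a) := ha.of_le (norm_rot_le h0 hl hl1)
    have r2 : Sm b (rot (l : ℂ) a') := ha'.of_le (norm_rot_le h0' hl hl1)
    have n1 : nm b (rot (l : ℂ) a) ≤ nm b a := D1G.nm_le_of_le ha (norm_rot_le h0 hl hl1)
    have n2 : nm b (rot (l : ℂ) a') ≤ nm b a' := D1G.nm_le_of_le ha' (norm_rot_le h0' hl hl1)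
    have hu' : Sm b (((l : ℂ) ^ (m + 1)) • u) := hus.smul _
    have r3 : Sm b (rot (l : ℂ) u) := hu'.of_le (norm_rot_le' hu0 hl hl1)
    have n3 : nm b (rot (l : ℂ) u) ≤ l ^ (m + 1) * nm b u := by
      refine (D1G.nm_le_of_le hu' (norm_rot_le' hu0 hl hl1)).trans (le_of_eq ?_)
      rw [D1G.nm_smul, norm_pow, Complex.norm_real, Real.norm_of_nonneg hl.le]
    have hnu := D1G.nm_nonneg b u
    have hlm : l ^ (m + 1) ≤ 1 := pow_le_one₀ hl.le hl1
    have e0 : rot (l : ℂ) a + rot (l : ℂ) u = rot (l : ℂ) a' := by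
      rw [hu, D1G.rot_sub]; abel
    have h1 := D1G.lipF hF r1 r3 (by linarith) (by nlinarith)
    rw [e0, hF.rot _ hlc a ha r1 (by linarith) (by linarith),
      hF.rot _ hlc a' ha' r2 (by linarith) (by linarith), ← mul_sub, norm_mul, norm_pow,
      Complex.norm_real, Real.norm_of_nonneg hl.le] at h1
    have h2 : l ^ m * ‖F a' - F a‖ ≤ l ^ m * (4 * M / R * nm b u * l) := by
      calc l ^ m * ‖F a' - F a‖ ≤ 4 * M / R * nm b (rot (l : ℂ) u) := h1
        _ ≤ 4 * M / R * (l ^ (m + 1) * nm b u) := by gcongr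
        _ = _ := by rw [pow_succ]; ring
    exact le_of_mul_le_mul_left h2 (by positivity)
  by_contra hne
  have hpos : 0 < ‖F a' - F a‖ := norm_pos_iff.2 (sub_ne_zero.2 (Ne.symm hne))
  set K := 4 * M / R * nm b u with hK
  have hK0 : 0 ≤ K := by
    have := D1G.nm_nonneg b u
    positivity
  set l := min 1 (‖F a' - F a‖ / (2 * (K + 1))) with hl
  have hl0 : 0 < l := by positivity
  have h3 := key l hl0 (min_le_left _ _)
  have h4 : K * l ≤ K * (‖F a' - F a‖ / (2 * (K + 1))) := mul_le_mul_of_nonneg_left (min_le_right _ _) hK0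
  have h5 : K * (‖F a' - F a‖ / (2 * (K + 1))) < ‖F a' - F a‖ := by
    rw [mul_div_assoc', div_lt_iff₀ (by positivity)]
    nlinarith
  linarith

end

end Vale.Agent.P097.H809D
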