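import Vale.Agent.P097.H809D.Cnu
import Vale.Agent.P097.H809D.Trunc
import Vale.Agent.P097.H500.G.Env

/-! # P097 / disc case / D1e : the relations of `D4` at the one-sided conic (helper809) -/

set_option linter.all false

open Filter Topology Metric

namespace Vale.Agent.P097.H809D

open H795.D1 (md df cr cu Num Adm rho)
open H500.G (cT EV Fpn)

theorem EE_eq (f g : ℂ → ℂ) (n : ℕ) (α : ℝ) : EE f g n α = EV n α f g := rfl

/-- the Taylor series of the analytic conic -/
theorem TS_hc {c : ℕ → ℂ} {b : ℂ} (hc0 : c 0 = 1)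
    (hb : (PowerSeries.mk c) ^ 2 = 1 + PowerSeries.C b * PowerSeries.X ^ 2) :
    TS (hc b) = PowerSeries.mk c := by
  have h1 : TS (hc b) ^ 2 = 1 + PowerSeries.C b * PowerSeries.X ^ 2 := by
    rw [← TS_pow (hc_an b), ← TS_quad]
    apply TS_congr
    filter_upwards [quad_small b] with z hz
    exact hc_sq hz
  have h2 : (TS (hc b) - PowerSeries.mk c) * (TS (hc b) + PowerSeries.mk c) = 0 := by
    linear_combination h1 - hb
  rcases mul_eq_zero.1 h2 with h | h
  · exact sub_eq_zero.1 h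
  · exfalso
    have h3 := congrArg (PowerSeries.coeff 0) h
    rw [map_add, coeff_TS_zero, hc_zero, PowerSeries.coeff_mk, hc0, map_zero] at h3
    norm_num at h3

/-- truncated direction -/
noncomputable def gp (g : ℕ → ℂ) (n : ℕ) (z : ℂ) : ℂ := ∑ k ∈ Finset.range (n + 1), g k * z ^ k

theorem gp_an (g : ℕ → ℂ) (n : ℕ) : AnalyticAt ℂ (gp g n) 0 := by
  unfold gp
  exact Finset.analyticAt_fun_sum _ fun k _ => analyticAt_const.fun_mul (analyticAt_id.fun_pow k)

theorem coeff_gp (g : ℕ → ℂ) (n k : ℕ) :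
    PowerSeries.coeff k (TS (gp g n)) = if k ≤ n then g k else 0 := by
  have h : TS (gp g n) = ∑ j ∈ Finset.range (n + 1), PowerSeries.C (g j) * PowerSeries.X ^ j := by
    unfold gp
    rw [TS_sum (f := fun k z => g k * z ^ k) _
      fun k _ => analyticAt_const.fun_mul (analyticAt_id.fun_pow k)]
    refine Finset.sum_congr rfl fun j _ => ?_
    rw [TS_mul (f := fun _ => g j) (g := fun z => z ^ j) analyticAt_const (analyticAt_id.fun_pow j),
      TS_const, TS_pow (f := fun z => z) analyticAt_id, TS_id]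
  rw [h, map_sum]
  simp only [PowerSeries.coeff_C_mul, PowerSeries.coeff_X_pow, mul_ite, mul_one, mul_zero]
  rw [Finset.sum_ite_eq]
  simp only [Finset.mem_range, Nat.lt_succ_iff]

theorem TS_quot {c : ℕ → ℂ} {b : ℂ} (hc0 : c 0 = 1)
    (hb : (PowerSeries.mk c) ^ 2 = 1 + PowerSeries.C b * PowerSeries.X ^ 2) (j : ℕ) :
    AnalyticAt ℂ (fun z => (z / hc b z) ^ j) 0 ∧
    TS (fun z => (z / hc b z) ^ j) = (PowerSeries.X * (PowerSeries.mk c)⁻¹) ^ j := by
  have ha : AnalyticAt ℂ (fun z => z / hc b z) 0 :=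
    analyticAt_id.fun_div (hc_an b) (hc_ne b 0)
  refine ⟨ha.fun_pow j, ?_⟩
  rw [TS_pow ha]
  congr 1
  have h1 : TS (fun z => z / hc b z) * PowerSeries.mk c = PowerSeries.X := by
    rw [← TS_hc hc0 hb, ← TS_mul ha (hc_an b)]
    have : (fun z => z / hc b z * hc b z) = fun z => z := by
      funext z
      exact div_mul_cancel₀ z (hc_ne b z)
    rw [this, TS_id]
  have h2 : PowerSeries.mk c * (PowerSeries.mk c)⁻¹ = 1 := by
    apply PowerSeries.mul_inv_cancel
    rw [← PowerSeries.coeff_zero_eq_constantCoeff_apply, PowerSeries.coeff_mk, hc0]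
    exact one_ne_zero
  calc TS (fun z => z / hc b z) = TS (fun z => z / hc b z) * (PowerSeries.mk c * (PowerSeries.mk c)⁻¹) := by
        rw [h2, mul_one]
    _ = PowerSeries.X * (PowerSeries.mk c)⁻¹ := by rw [← mul_assoc, h1]

/-- the coefficient of `QQ` in terms of `G` -/
theorem QQ_coeff {c g G : ℕ → ℂ} {b κ ε : ℂ} {α : ℝ} (D : Dat b κ ε α) (hc0 : c 0 = 1)
    (hb : (PowerSeries.mk c) ^ 2 = 1 + PowerSeries.C b * PowerSeries.X ^ 2)
    (hG : ∀ i, PowerSeries.coeff i (PowerSeries.mk g * PowerSeries.mk c) =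
      ∑ j ∈ Finset.range (i + 1), G j *
        PowerSeries.coeff i ((PowerSeries.X * (PowerSeries.mk c)⁻¹) ^ j)) {n : ℕ} (hn : 1 ≤ n) :
    PowerSeries.coeff n (TS (QQ (gp g n) κ ε)) =
      ∑ j ∈ (Finset.range n).filter (fun j => 2 * j < n),
        G (n - 2 * j) * ((-1) ^ j * ((n - j - 1).choose j : ℂ)) * κ ^ j := by
  set S : ℂ → ℂ := fun z => ∑ j ∈ Finset.range (n + 1), G j * (z / hc b z) ^ j with hS
  have hSa : AnalyticAt ℂ S 0 :=
    Finset.analyticAt_fun_sum _ fun j _ => analyticAt_const.fun_mul (TS_quot hc0 hb j).1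
  set φ : ℂ → ℂ := fun z => gp g n z * hc b z - S z with hφ
  have hgh : AnalyticAt ℂ (fun z => gp g n z * hc b z) 0 := (gp_an g n).fun_mul (hc_an b)
  have hφa : AnalyticAt ℂ φ 0 := hgh.fun_sub hSa
  have h1 : ∀ k ≤ n, PowerSeries.coeff k (TS φ) = 0 := by
    intro k hk
    rw [hφ, TS_sub (f := fun z => gp g n z * hc b z) hgh hSa, map_sub,
      TS_mul (gp_an g n) (hc_an b), TS_hc hc0 hb]
    have e1 : PowerSeries.coeff k (TS (gp g n) * PowerSeries.mk c) =
        PowerSeries.coeff k (PowerSeries.mk g * PowerSeries.mk c) := by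
      rw [PowerSeries.coeff_mul, PowerSeries.coeff_mul]
      refine Finset.sum_congr rfl fun q hq => ?_
      have := Finset.HasAntidiagonal.mem_antidiagonal.1 hq
      rw [coeff_gp, if_pos (by omega), PowerSeries.coeff_mk, PowerSeries.coeff_mk]
    have e2 : TS S = ∑ j ∈ Finset.range (n + 1),
        PowerSeries.C (G j) * (PowerSeries.X * (PowerSeries.mk c)⁻¹) ^ j := by
      rw [hS, TS_sum _ fun j _ => analyticAt_const.fun_mul (TS_quot hc0 hb j).1]
      refine Finset.sum_congr rfl fun j _ => ?_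
      rw [TS_mul (f := fun _ => G j) analyticAt_const (TS_quot hc0 hb j).1, TS_const,
        (TS_quot hc0 hb j).2]
    rw [e1, hG k, e2, map_sum]
    simp only [PowerSeries.coeff_C_mul]
    rw [sub_eq_zero]
    refine Finset.sum_subset (Finset.range_subset_range.2 (by omega)) fun j hj hj' => ?_
    rw [Finset.mem_range] at hj'
    rw [mul_pow, PowerSeries.coeff_X_pow_mul', if_neg (by omega), mul_zero]
  have hza : AnalyticAt ℂ (fun v : ℂ => v * RR κ ε v) 0 := analyticAt_id.fun_mul (RR_an κ ε)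
  have h2 := TS_comp_zero hφa hza (by simp) h1 (k := n) le_rfl
  have hjka : ∀ j : ℕ, AnalyticAt ℂ (fun v : ℂ => (v / (1 + κ * v ^ 2)) ^ j) 0 := fun j =>
    (jk_an κ).fun_pow j
  have hJ : AnalyticAt ℂ (fun v : ℂ => ∑ j ∈ Finset.range (n + 1), G j * (v / (1 + κ * v ^ 2)) ^ j) 0 :=
    Finset.analyticAt_fun_sum _ fun j _ => analyticAt_const.fun_mul (hjka j)
  have h3 : (fun v : ℂ => φ (v * RR κ ε v)) =ᶠ[𝓝 0] fun v => QQ (gp g n) κ ε v -
      ∑ j ∈ Finset.range (n + 1), G j * (v / (1 + κ * v ^ 2)) ^ j := by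
    filter_upwards [hc_Hh D.norm D.hb] with v hv
    simp only [hφ, hS]
    rw [hv]
    unfold QQ
    congr 1
    refine Finset.sum_congr rfl fun j _ => ?_
    rw [mul_div_mul_right _ _ (RR_ne κ ε v)]
  rw [TS_congr h3, TS_sub (QQ_an (gp_an g n) κ ε) hJ, map_sub, sub_eq_zero] at h2
  rw [h2, TS_sum _ (fun j _ => analyticAt_const.fun_mul (hjka j)), map_sum, ← coeff_sum_jk κ G hn]
  refine Finset.sum_congr rfl fun j _ => ?_
  rw [TS_mul (f := fun _ => G j) analyticAt_const (hjka j), TS_const, PowerSeries.coeff_C_mul, TS_jk]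

/-- [D1e] the relations of `D4` from the linearised equations -/
theorem rel_of_F {c c' g G : ℕ → ℂ} {b : ℂ} {n p r : ℕ} (hp : 0 < p) (h2 : 2 * p < n) (hr : n ≤ r)
    (hc0 : c 0 = 1) (hc'0 : c' 0 = 0) (hcc : ∀ m, 1 ≤ m → c m = c' m)
    (hb : (PowerSeries.mk c) ^ 2 = 1 + PowerSeries.C b * PowerSeries.X ^ 2)
    (hF : ∀ m, 1 ≤ m → m ≤ n → ∃ s₀ : ℝ, 0 < s₀ ∧ ∀ s : ℂ, ‖s‖ < s₀ → s ≠ 0 →
      HasDerivAt (fun t : ℂ => Fpn p n m (D1G.rot s (D1G.tr r (D1G.os c')) +
        t • D1G.rot s (D1G.tr r (D1G.os g)))) 0 0)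
    (hG : ∀ i, PowerSeries.coeff i (PowerSeries.mk g * PowerSeries.mk c) =
      ∑ j ∈ Finset.range (i + 1), G j *
        PowerSeries.coeff i ((PowerSeries.X * (PowerSeries.mk c)⁻¹) ^ j)) :
    ∑ j ∈ (Finset.range n).filter (fun j => 2 * j < n),
      G (n - 2 * j) * ((-1) ^ j * ((n - j - 1).choose j : ℂ)) *
        (b / (4 * (Real.cos (Real.pi * p / n) : ℂ) ^ 2)) ^ j = 0 := by
  have hpn : p < n := by omega
  have hn0 : (0 : ℝ) < n := by exact_mod_cast (hp.trans hpn)
  have hp0 : (0 : ℝ) < p := by exact_mod_cast hp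
  obtain ⟨e, he, hnum⟩ := H500.G.num_half hp hpn
  set α : ℝ := Real.pi * p / n with hα
  set κ : ℂ := b / (4 * (Real.cos α : ℂ) ^ 2) with hκ
  have hcos : Real.cos α ≠ 0 := by
    apply ne_of_gt
    apply Real.cos_pos_of_mem_Ioo
    constructor
    · have : 0 < α := by positivity
      linarith [Real.pi_pos]
    · rw [hα, div_lt_div_iff₀ hn0 two_pos]
      have : (2 : ℝ) * p < n := by exact_mod_cast h2
      nlinarith [Real.pi_pos]
  have hcos' : (Real.cos α : ℂ) ≠ 0 := Complex.ofReal_ne_zero.2 hcos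
  have D : Dat b κ (Complex.exp (Complex.I * α)) α := by
    refine ⟨rfl, ?_⟩
    have e1 : Complex.exp (Complex.I * α) + (Complex.exp (Complex.I * α))⁻¹ = 2 * Complex.cos α := by
      rw [← Complex.exp_neg, Complex.two_cos, mul_comm Complex.I, neg_mul]
    rw [e1, hκ, ← Complex.ofReal_cos]
    field_simp
    ring
  -- the analytic table and direction
  set f : ℂ → ℂ := fun z => hc b z - 1 with hf
  have hfa : AnalyticAt ℂ f 0 := (hc_an b).fun_sub analyticAt_const
  have hf0 : f 0 = 0 := by simp only [hf, hc_zero]; ring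
  have hga := gp_an g n
  have hcf : ∀ k, cT f k = c' k := by
    intro k
    show PowerSeries.coeff k (TS f) = c' k
    rw [hf, TS_sub (hc_an b) analyticAt_const, TS_hc hc0 hb, TS_const, map_sub, PowerSeries.coeff_mk,
      PowerSeries.coeff_C]
    rcases Nat.eq_zero_or_pos k with h | h
    · subst h; rw [if_pos rfl, hc0, hc'0, sub_self]
    · rw [if_neg (by omega), sub_zero, hcc k h]
  have hcg : ∀ k ≤ n, cT (gp g n) k = g k := by
    intro k hk
    show PowerSeries.coeff k (TS (gp g n)) = g k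
    rw [coeff_gp, if_pos hk]
  -- truncation
  have hE : ∀ m, 1 ≤ m → m ≤ n → PowerSeries.coeff m (TS (EV n α f (gp g n))) = 0 := by
    intro m hm hmn
    obtain ⟨s₀, hs₀, hd⟩ := hF m hm hmn
    refine H500.G.coeff_E hp hpn hfa hf0 hga ?_
    obtain ⟨R, M, hFun⟩ := H500.G.fun_pn H500.G.holP hp hpn (b := 1) one_pos le_rfl m
    have hR := hFun.hR
    obtain ⟨s₂, hs₂, hw⟩ := H500.G.exists_wn_small' hfa hf0 (e := R / 16) (by positivity)
    obtain ⟨s₃, hs₃, hw3⟩ := H500.G.exists_WS hga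
    refine ⟨min s₀ (min s₂ s₃), by positivity, fun s hs hs0 => ?_⟩
    have hs1 : ‖s‖ < s₀ := hs.trans_le (min_le_left _ _)
    have hs2 : ‖s‖ < s₂ := hs.trans_le ((min_le_right _ _).trans (min_le_left _ _))
    have hs3 : ‖s‖ < s₃ := hs.trans_le ((min_le_right _ _).trans (min_le_right _ _))
    refine (hd s hs1 hs0).congr_of_eventuallyEq ?_
    set A := D1G.rot s (D1G.os (cT f)) with hA
    set B := D1G.rot s (D1G.os (cT (gp g n))) with hB
    set A' := D1G.rot s (D1G.tr r (D1G.os c')) with hA'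
    set B' := D1G.rot s (D1G.tr r (D1G.os g)) with hB'
    have sA : D1G.Sm 1 A := (hw s hs2).1
    have nA : D1G.nm 1 A < R / 16 := (hw s hs2).2
    have sB : D1G.Sm 1 B := hw3 s hs3
    have eA : A' = D1G.tr r A := by
      funext k
      rw [hA', hA]
      unfold D1G.rot D1G.tr D1G.os
      by_cases h1 : |k| ≤ (r : ℤ)
      · rw [if_pos h1, if_pos h1]
        show s ^ k * (if 0 ≤ k then c' k.toNat else 0) =
          s ^ k * (if 0 ≤ k then cT f k.toNat else 0)
        rw [hcf]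
      · rw [if_neg h1, if_neg h1, mul_zero]
    have sA' : D1G.Sm 1 A' := by rw [eA]; exact sA.tr r
    have nA' : D1G.nm 1 A' < R / 16 := by rw [eA]; exact (D1G.nm_tr_le sA r).trans_lt nA
    have sB' : D1G.Sm 1 B' := by
      have hfin : ∀ k ∉ Finset.Icc (-(r : ℤ)) r, ‖B' k‖ * Real.exp (1 * |(k : ℝ)|) = 0 := by
        intro k hk
        rw [Finset.mem_Icc, ← abs_le] at hk
        rw [hB']
        unfold D1G.rot D1G.tr
        rw [if_neg hk]; simp
      exact summable_of_ne_finset_zero hfin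
    have ht1 : ∀ᶠ t : ℂ in 𝓝 0, ‖t‖ * D1G.nm 1 B < R / 16 := by
      have hcont : ContinuousAt (fun t : ℂ => ‖t‖ * D1G.nm 1 B) 0 := by fun_prop
      exact hcont.eventually (gt_mem_nhds (by
        show ‖(0 : ℂ)‖ * D1G.nm 1 B < R / 16
        rw [norm_zero, zero_mul]; positivity))
    have ht2 : ∀ᶠ t : ℂ in 𝓝 0, ‖t‖ * D1G.nm 1 B' < R / 16 := by
      have hcont : ContinuousAt (fun t : ℂ => ‖t‖ * D1G.nm 1 B') 0 := by fun_prop
      exact hcont.eventually (gt_mem_nhds (by
        show ‖(0 : ℂ)‖ * D1G.nm 1 B' < R / 16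
        rw [norm_zero, zero_mul]; positivity))
    filter_upwards [ht1, ht2] with t k1 k2
    have neg : ∀ (q : ℕ → ℂ) (k : ℤ), k < 0 → D1G.rot s (D1G.os q) k = 0 := by
      intro q k hk
      unfold D1G.rot D1G.os
      rw [if_neg (by omega), mul_zero]
    have neg' : ∀ (q : ℕ → ℂ) (k : ℤ), k < 0 → D1G.rot s (D1G.tr r (D1G.os q)) k = 0 := by
      intro q k hk
      unfold D1G.rot D1G.tr D1G.os
      split_ifs
      · omega
      · simp
      · simp
    refine trunc hFun (sA.add (sB.smul t)) (sA'.add (sB'.smul t)) ?_ ?_ ?_ ?_ ?_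
    · refine (D1G.nm_add_le sA (sB.smul t)).trans ?_
      rw [D1G.nm_smul]; linarith
    · refine (D1G.nm_add_le sA' (sB'.smul t)).trans ?_
      rw [D1G.nm_smul]; linarith
    · intro k hk
      rw [Pi.add_apply, Pi.smul_apply, hA, hB, neg _ k hk, neg _ k hk]; simp
    · intro k hk
      rw [Pi.add_apply, Pi.smul_apply, hA', hB', neg' _ k hk, neg' _ k hk]; simp
    · intro k hk
      rcases lt_or_ge k 0 with h0 | h0
      · rw [Pi.add_apply, Pi.smul_apply, hA, hB, neg _ k h0, neg _ k h0, Pi.add_apply, Pi.smul_apply,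
          hA', hB', neg' _ k h0, neg' _ k h0]
      · obtain ⟨i, rfl⟩ := Int.eq_ofNat_of_zero_le h0
        have hi : i ≤ m := by exact_mod_cast hk
        have q1 : |(i : ℤ)| ≤ (r : ℤ) := by
          rw [abs_of_nonneg h0]; exact_mod_cast hi.trans (hmn.trans hr)
        have e1 : A (i : ℤ) = A' (i : ℤ) := by
          rw [eA]; unfold D1G.tr
          rw [if_pos q1]
        have e2 : B (i : ℤ) = B' (i : ℤ) := by
          rw [hB, hB']
          unfold D1G.rot D1G.tr D1G.os
          simp only [if_pos q1, if_pos h0]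
          rw [Int.toNat_natCast, hcg i (hi.trans hmn)]
        rw [Pi.add_apply, Pi.smul_apply, Pi.add_apply, Pi.smul_apply, e1, e2]
  have hEa : AnalyticAt ℂ (EE f (gp g n) n α) 0 := by
    rw [EE_eq]; exact H500.G.EV_analyticAt hp hpn hfa hf0 hga
  have h3 := QQ_zero D hα hnum he hga hEa (by
    intro m hm hmn
    rw [EE_eq]; exact hE m hm hmn)
  rw [QQ_coeff D hc0 hb hG (by omega)] at h3
  exact h3

end Vale.Agent.P097.H809D
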