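import Vale.Agent.P097.H809D.Cnc

/-! # P097 / disc case / D1e : the explicit critical polygons of the one-sided conic (helper809) -/

set_option linter.all false

open Filter Topology

namespace Vale.Agent.P097.H809D

open H795.D1 (md df cr cu Num Adm)

/-- data: `ε = exp (i α)`, `κ = b / (4 cos² α)` -/
structure Dat (b κ ε : ℂ) (α : ℝ) : Prop where
  e : ε = Complex.exp (Complex.I * α)
  hb : b = (ε + ε⁻¹) ^ 2 * κ

section
variable {b κ ε : ℂ} {α : ℝ}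

theorem Dat.norm (D : Dat b κ ε α) : ‖ε‖ = 1 := by
  rw [D.e, Complex.norm_exp]; simp

theorem Dat.ne (D : Dat b κ ε α) : ε ≠ 0 := by
  rw [D.e]; exact Complex.exp_ne_zero _

theorem Dat.inv (D : Dat b κ ε α) : ε⁻¹ = Complex.exp (-(Complex.I * α)) := by
  rw [D.e, ← Complex.exp_neg]

theorem Dat.mulinv (D : Dat b κ ε α) : ε * ε⁻¹ = 1 := mul_inv_cancel₀ D.ne

theorem Dat.cos (D : Dat b κ ε α) : ε + ε⁻¹ = 2 * Complex.cos α := by
  rw [D.inv, D.e, Complex.two_cos, mul_comm Complex.I, neg_mul]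

theorem Dat.sin (D : Dat b κ ε α) : ε - ε⁻¹ = 2 * Complex.I * Complex.sin α := by
  rw [D.inv, D.e, Complex.sin, mul_comm Complex.I (α : ℂ), neg_mul]
  have := Complex.I_mul_I
  linear_combination (-(Complex.exp (-(α * Complex.I)) - Complex.exp (α * Complex.I))) * this

/-- bounce variable -/
noncomputable def vv (ε x : ℂ) (j : ℕ) : ℂ := ε ^ (2 * j + 1) * x

theorem vv_prev (D : Dat b κ ε α) (x : ℂ) (j : ℕ) : ε⁻¹ * vv ε x j = ε ^ (2 * j) * x := by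
  unfold vv
  rw [pow_succ]
  linear_combination (ε ^ (2 * j) * x) * D.mulinv

theorem vv_next (x : ℂ) (j : ℕ) : ε * vv ε x j = ε ^ (2 * (j + 1)) * x := by
  unfold vv
  rw [show 2 * (j + 1) = 2 * j + 1 + 1 by ring, pow_succ ε (2 * j + 1)]; ring

theorem norm_vv (D : Dat b κ ε α) (x : ℂ) (j : ℕ) : ‖vv ε x j‖ = ‖x‖ := by
  unfold vv; rw [norm_mul, norm_pow, D.norm, one_pow, one_mul]

theorem norm_kvv (D : Dat b κ ε α) (x : ℂ) (j : ℕ) : ‖κ * (vv ε x j) ^ 2‖ = ‖κ * x ^ 2‖ := by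
  rw [norm_mul, norm_mul, norm_pow, norm_pow, norm_vv D]

/-- first side: `exp (i md)` -/
theorem exp_md (D : Dat b κ ε α) {x : ℂ} (hx : ‖κ * x ^ 2‖ < 1) (j : ℕ) :
    x / (1 - κ * x ^ 2) * Complex.exp (Complex.I * ((α * (2 * j + 1) : ℝ) + md (uu κ ε x) j)) =
      vv ε x j * RR κ ε (vv ε x j) := by
  have h0 : 1 - κ * x ^ 2 ≠ 0 := by
    have := sm_ne (ε := 1) (by simp) hx
    simpa using this
  have e1 : Complex.I * (((α * (2 * j + 1) : ℝ) : ℂ) + md (uu κ ε x) j) =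
      (2 * j + 1 : ℕ) * (Complex.I * α) + (Lg (κ * x ^ 2) +
      -(Lg (κ * (ε⁻¹ * vv ε x j) ^ 2) + Lg (κ * (ε * vv ε x j) ^ 2)) / 2) := by
    rw [vv_prev D, vv_next]
    unfold md uu
    push_cast
    have := Complex.I_mul_I
    linear_combination (-(Lg (κ * x ^ 2) - Lg (κ * (ε ^ (2 * j) * x) ^ 2) +
      (Lg (κ * x ^ 2) - Lg (κ * (ε ^ (2 * (j + 1)) * x) ^ 2))) / 2) * this
  rw [e1, Complex.exp_add, Complex.exp_add, Complex.exp_nat_mul, ← D.e, exp_Lg h0]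
  unfold vv RR
  rw [div_mul_eq_mul_div, div_eq_iff h0]
  ring

/-- the angle with the boundary -/
theorem exp_df (D : Dat b κ ε α) {x : ℂ} (hx : ‖κ * x ^ 2‖ < 1) (j : ℕ) :
    Complex.exp (Complex.I * (α + df (uu κ ε x) j)) =
      ε * (1 - κ * (ε⁻¹ * vv ε x j) ^ 2) * RR κ ε (vv ε x j) ∧
    Complex.exp (-(Complex.I * (α + df (uu κ ε x) j))) =
      ε⁻¹ * (1 - κ * (ε * vv ε x j) ^ 2) * RR κ ε (vv ε x j) := by
  have hv : ‖κ * (vv ε x j) ^ 2‖ < 1 := by rwa [norm_kvv D]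
  have hε' : ‖ε⁻¹‖ = 1 := by rw [norm_inv, D.norm, inv_one]
  have h1 := sm_ne D.norm hv
  have h2 := sm_ne hε' hv
  have e0 : Complex.I * ((α : ℂ) + df (uu κ ε x) j) = Complex.I * α +
      (Lg (κ * (ε⁻¹ * vv ε x j) ^ 2) +
      -(Lg (κ * (ε⁻¹ * vv ε x j) ^ 2) + Lg (κ * (ε * vv ε x j) ^ 2)) / 2) := by
    rw [vv_prev D, vv_next]
    unfold df uu
    have := Complex.I_mul_I
    linear_combination ((Lg (κ * (ε ^ (2 * (j + 1)) * x) ^ 2) -
      Lg (κ * (ε ^ (2 * j) * x) ^ 2)) / 2) * this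
  have e2 : -(Complex.I * ((α : ℂ) + df (uu κ ε x) j)) = -(Complex.I * α) +
      (Lg (κ * (ε * vv ε x j) ^ 2) +
      -(Lg (κ * (ε⁻¹ * vv ε x j) ^ 2) + Lg (κ * (ε * vv ε x j) ^ 2)) / 2) := by
    rw [e0]; ring
  constructor
  · rw [e0, Complex.exp_add, Complex.exp_add, ← D.e, exp_Lg h2]
    unfold RR; ring
  · rw [e2, Complex.exp_add, Complex.exp_add, ← D.inv, exp_Lg h1]
    unfold RR; ring

theorem sin_df (D : Dat b κ ε α) {x : ℂ} (hx : ‖κ * x ^ 2‖ < 1) (j : ℕ) :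
    Complex.sin (α + df (uu κ ε x) j) =
      Complex.sin α * ((1 + κ * (vv ε x j) ^ 2) * RR κ ε (vv ε x j)) := by
  obtain ⟨h1, h2⟩ := exp_df D hx j
  have e1 : 2 * Complex.I * Complex.sin (α + df (uu κ ε x) j) =
      Complex.exp (Complex.I * (α + df (uu κ ε x) j)) -
      Complex.exp (-(Complex.I * (α + df (uu κ ε x) j))) := by
    rw [Complex.sin, neg_mul, mul_comm ((α : ℂ) + df (uu κ ε x) j) Complex.I]
    have := Complex.I_mul_I
    linear_combination (-(Complex.exp (Complex.I * (α + df (uu κ ε x) j)) -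
      Complex.exp (-(Complex.I * (α + df (uu κ ε x) j))))) * this
  have h2I : (2 * Complex.I : ℂ) ≠ 0 := mul_ne_zero two_ne_zero Complex.I_ne_zero
  apply mul_left_cancel₀ h2I
  rw [e1, h1, h2]
  have e2 := D.sin
  have e3 := D.mulinv
  linear_combination ((1 + κ * vv ε x j ^ 2) * RR κ ε (vv ε x j)) * e2 +
    (κ * vv ε x j ^ 2 * RR κ ε (vv ε x j) * (ε - ε⁻¹)) * e3

theorem cos_df (D : Dat b κ ε α) {x : ℂ} (hx : ‖κ * x ^ 2‖ < 1) (j : ℕ) :
    Complex.cos (α + df (uu κ ε x) j) =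
      Complex.cos α * ((1 - κ * (vv ε x j) ^ 2) * RR κ ε (vv ε x j)) := by
  obtain ⟨h1, h2⟩ := exp_df D hx j
  have e1 : 2 * Complex.cos (α + df (uu κ ε x) j) =
      Complex.exp (Complex.I * (α + df (uu κ ε x) j)) +
      Complex.exp (-(Complex.I * (α + df (uu κ ε x) j))) := by
    rw [Complex.two_cos, neg_mul, mul_comm ((α : ℂ) + df (uu κ ε x) j) Complex.I]
  apply mul_left_cancel₀ (two_ne_zero : (2 : ℂ) ≠ 0)
  rw [e1, h1, h2]
  have e2 := D.cos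
  have e3 := D.mulinv
  linear_combination ((1 - κ * vv ε x j ^ 2) * RR κ ε (vv ε x j)) * e2 -
    (κ * vv ε x j ^ 2 * RR κ ε (vv ε x j) * (ε + ε⁻¹)) * e3

/-- the table seen from the regular midpoints -/
noncomputable def GX (f : ℂ → ℂ) (α : ℝ) (X : ℂ) (j : ℕ) (w : ℂ) : ℂ :=
  f (X * Complex.exp (Complex.I * ((α * (2 * j + 1) : ℝ) + w)))

theorem GX_hasDerivAt {f : ℂ → ℂ} {f' : ℂ} {α : ℝ} {X : ℂ} {j : ℕ} {w : ℂ}
    (h : HasDerivAt f f' (X * Complex.exp (Complex.I * ((α * (2 * j + 1) : ℝ) + w)))) :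
    HasDerivAt (GX f α X j) (Complex.I *
      (X * Complex.exp (Complex.I * ((α * (2 * j + 1) : ℝ) + w)) * f')) w := by
  have h1 : HasDerivAt (fun w : ℂ => X * Complex.exp (Complex.I * ((α * (2 * j + 1) : ℝ) + w)))
      (X * (Complex.exp (Complex.I * ((α * (2 * j + 1) : ℝ) + w)) * (Complex.I * 1))) w :=
    ((((hasDerivAt_id w).const_add _).const_mul Complex.I).cexp).const_mul X
  have h2 := h.comp w h1
  have e : f' * (X * (Complex.exp (Complex.I * ((α * (2 * j + 1) : ℝ) + w)) * (Complex.I * 1))) =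
      Complex.I * (X * Complex.exp (Complex.I * ((α * (2 * j + 1) : ℝ) + w)) * f') := by ring
  rw [e] at h2
  exact h2

/-- good points -/
structure Gd (b κ ε : ℂ) (v : ℂ) : Prop where
  k : ‖κ * v ^ 2‖ < 1
  z : ‖b * (v * RR κ ε v) ^ 2‖ < 1
  h : hc b (v * RR κ ε v) = (1 + κ * v ^ 2) * RR κ ε v

theorem Gd_ev (D : Dat b κ ε α) : ∀ᶠ v in 𝓝 (0 : ℂ), Gd b κ ε v := by
  have c1 : ContinuousAt (fun v : ℂ => v * RR κ ε v) 0 := continuousAt_id.mul (RR_an κ ε).continuousAt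
  have t1 : Tendsto (fun v : ℂ => v * RR κ ε v) (𝓝 0) (𝓝 0) := by simpa using c1.tendsto
  filter_upwards [quad_small κ, t1.eventually (quad_small b), hc_Hh D.norm D.hb] with v h1 h2 h3
  exact ⟨h1, h2, h3⟩

/-- outgoing support value -/
theorem out_val (D : Dat b κ ε α) {x : ℂ} {j : ℕ} (hx : ‖κ * x ^ 2‖ < 1)
    (hg : Gd b κ ε (vv ε x j)) :
    deriv (GX (fun z => hc b z - 1) α (x / (1 - κ * x ^ 2)) j) (md (uu κ ε x) j) =
      Complex.I * (b * (vv ε x j * RR κ ε (vv ε x j)) ^ 2 /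
        ((1 + κ * vv ε x j ^ 2) * RR κ ε (vv ε x j))) ∧
    1 + GX (fun z => hc b z - 1) α (x / (1 - κ * x ^ 2)) j (md (uu κ ε x) j) =
      (1 + κ * vv ε x j ^ 2) * RR κ ε (vv ε x j) := by
  have e1 := exp_md D hx j
  have h1 : HasDerivAt (fun z => hc b z - 1) (b * (vv ε x j * RR κ ε (vv ε x j)) /
      hc b (vv ε x j * RR κ ε (vv ε x j))) (vv ε x j * RR κ ε (vv ε x j)) :=
    (hc_hasDerivAt hg.z).sub_const 1
  constructor
  · have h2 := GX_hasDerivAt (f := fun z => hc b z - 1) (α := α) (X := x / (1 - κ * x ^ 2)) (j := j)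
      (w := md (uu κ ε x) j) (by rw [e1]; exact h1)
    rw [h2.deriv, e1, hg.h]
    ring
  · show 1 + (hc b (x / (1 - κ * x ^ 2) *
      Complex.exp (Complex.I * ((α * (2 * j + 1) : ℝ) + md (uu κ ε x) j))) - 1) = _
    rw [e1, hg.h]; ring

theorem hh_ne {v : ℂ} (hg : Gd b κ ε v) : (1 + κ * v ^ 2) * RR κ ε v ≠ 0 := by
  rw [← hg.h]; exact hc_ne b _

theorem RR_ne (κ ε v : ℂ) : RR κ ε v ≠ 0 := Complex.exp_ne_zero _

/-- the equations of the explicit polygon -/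
theorem cr_uu (D : Dat b κ ε α) {x : ℂ} {j : ℕ} (hx : ‖κ * x ^ 2‖ < 1)
    (hg : Gd b κ ε (vv ε x j)) (hg' : Gd b κ ε (vv ε x (j + 1))) :
    cr α (GX (fun z => hc b z - 1) α (x / (1 - κ * x ^ 2))) (uu κ ε x) j = 0 := by
  obtain ⟨o1, o2⟩ := out_val D hx hg
  obtain ⟨i1, i2⟩ := out_val D hx hg'
  unfold cr
  rw [o1, o2, i1, i2, sin_df D hx, sin_df D hx, cos_df D hx, cos_df D hx]
  set v := vv ε x j with hv
  have hv' : vv ε x (j + 1) = ε ^ 2 * v := by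
    rw [hv]; unfold vv; rw [show 2 * (j + 1) + 1 = 2 + (2 * j + 1) by ring, pow_add]; ring
  have hp := D.mulinv
  have hne := hh_ne hg
  have hne' := hh_ne hg'
  have hR := RR_sq D.norm hg.k
  have hR' := RR_sq D.norm hg'.k
  set R := RR κ ε v with hRdef
  set R' := RR κ ε (vv ε x (j + 1)) with hRdef'
  rw [hv'] at hne' hR' ⊢
  -- simplify the products
  have aux : ∀ A H s : ℂ, H ≠ 0 → Complex.I * (A / H) * (s * H) = Complex.I * s * A := by
    intro A H s h; field_simp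
  have s1 : Complex.I * (b * (v * R) ^ 2 / ((1 + κ * v ^ 2) * R)) *
      (Complex.sin α * ((1 + κ * v ^ 2) * R)) = Complex.I * Complex.sin α * b * (v * R) ^ 2 := by
    rw [aux _ _ _ hne]; ring
  have s2 : Complex.I * (b * (ε ^ 2 * v * R') ^ 2 / ((1 + κ * (ε ^ 2 * v) ^ 2) * R')) *
      (Complex.sin α * ((1 + κ * (ε ^ 2 * v) ^ 2) * R')) =
      Complex.I * Complex.sin α * b * (ε ^ 2 * v * R') ^ 2 := by
    rw [aux _ _ _ hne']; ring
  rw [s1, s2]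
  have hw1 : ε * v = ε⁻¹ * (ε ^ 2 * v) := by
    linear_combination (-(ε * v)) * hp
  have hs := D.sin
  have hc' := D.cos
  -- values: p = C (1 + κ w²)/(1 - κ w²), w = ε v
  have hw : 1 - κ * (ε * v) ^ 2 ≠ 0 := sm_ne D.norm hg.k
  have k1 : Complex.I * Complex.sin α * b * (v * R) ^ 2 +
      (1 + κ * v ^ 2) * R * (Complex.cos α * ((1 - κ * v ^ 2) * R)) =
      Complex.cos α * (1 + κ * (ε * v) ^ 2) / (1 - κ * (ε * v) ^ 2) := by
    rw [eq_div_iff hw]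
    have hb := D.hb
    have q1 : 2 * Complex.I * Complex.sin α * (2 * Complex.cos α) = ε ^ 2 - ε⁻¹ ^ 2 := by
      rw [← hs, ← hc']; ring
    have q2 : Complex.I * Complex.sin α * b * v ^ 2 +
      (1 + κ * v ^ 2) * (Complex.cos α * (1 - κ * v ^ 2)) =
        Complex.cos α * ((1 + κ * (ε * v) ^ 2) * (1 - κ * (ε⁻¹ * v) ^ 2)) := by
      rw [hb, hc']
      linear_combination (κ * v ^ 2 * Complex.cos α) * q1 +
        (Complex.cos α * κ ^ 2 * v ^ 4 * (ε * ε⁻¹ + 1)) * hp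
    linear_combination (R ^ 2 * (1 - κ * (ε * v) ^ 2)) * q2 +
      (Complex.cos α * (1 + κ * (ε * v) ^ 2)) * hR
  have k2 : (1 + κ * (ε ^ 2 * v) ^ 2) * R' * (Complex.cos α * ((1 - κ * (ε ^ 2 * v) ^ 2) * R')) -
      Complex.I * Complex.sin α * b * (ε ^ 2 * v * R') ^ 2 =
      Complex.cos α * (1 + κ * (ε * v) ^ 2) / (1 - κ * (ε * v) ^ 2) := by
    rw [eq_div_iff hw]
    have hb := D.hb
    have q1 : 2 * Complex.I * Complex.sin α * (2 * Complex.cos α) = ε ^ 2 - ε⁻¹ ^ 2 := by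
      rw [← hs, ← hc']; ring
    rw [← hw1] at hR'
    have q2 : (1 + κ * (ε ^ 2 * v) ^ 2) * (Complex.cos α * (1 - κ * (ε ^ 2 * v) ^ 2)) -
      Complex.I * Complex.sin α * b * (ε ^ 2 * v) ^ 2 =
        Complex.cos α * ((1 + κ * (ε * v) ^ 2) * (1 - κ * (ε * (ε ^ 2 * v)) ^ 2)) := by
      rw [hb, hc']
      linear_combination (-κ * (ε ^ 2 * v) ^ 2 * Complex.cos α) * q1 +
        (Complex.cos α * κ * v ^ 2 * ε ^ 2 * (ε * ε⁻¹ + 1)) * hp
    linear_combination (R' ^ 2 * (1 - κ * (ε * v) ^ 2)) * q2 +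
      (Complex.cos α * (1 + κ * (ε * v) ^ 2)) * hR'
  linear_combination k1 - k2

end

end Vale.Agent.P097.H809D
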