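import Vale.Agent.P097.H809D.Lem
import Vale.Agent.P097.H795.D1.Out

/-! # P097 / disc case / D1e : the explicit closed orbits of the one-sided conic (helper809) -/

set_option linter.all false

open Filter Topology

namespace Vale.Agent.P097.H809D

/-- principal logarithm -/
noncomputable def Lg (w : ℂ) : ℂ := Complex.log (1 - w)

/-- the one-sided conic `h² = 1 + b z²` -/
noncomputable def hc (b z : ℂ) : ℂ := Complex.exp (Complex.log (1 + b * z ^ 2) / 2)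

/-- `((1 - κ v²/ε²) (1 - κ ε² v²)) ^ (-1/2)` -/
noncomputable def RR (κ ε v : ℂ) : ℂ :=
  Complex.exp (-(Lg (κ * (ε⁻¹ * v) ^ 2) + Lg (κ * (ε * v) ^ 2)) / 2)

/-- vertices of the explicit critical polygon, `X = x / (1 - κ x²)` -/
noncomputable def uu (κ ε : ℂ) (x : ℂ) (j : ℕ) : ℂ :=
  -Complex.I * (Lg (κ * x ^ 2) - Lg (κ * (ε ^ (2 * j) * x) ^ 2))

theorem exp_Lg {w : ℂ} (h : 1 - w ≠ 0) : Complex.exp (Lg w) = 1 - w := Complex.exp_log h

theorem Lg_an : AnalyticAt ℂ Lg 0 := by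
  unfold Lg
  exact (analyticAt_const.fun_sub analyticAt_id).clog (by simp)

theorem Lg_zero : Lg 0 = 0 := by simp [Lg]

theorem sq_an (κ ε : ℂ) : AnalyticAt ℂ (fun v : ℂ => κ * (ε * v) ^ 2) 0 :=
  analyticAt_const.fun_mul ((analyticAt_const.fun_mul analyticAt_id).fun_pow 2)

theorem Lg_sq_an (κ ε : ℂ) : AnalyticAt ℂ (fun v : ℂ => Lg (κ * (ε * v) ^ 2)) 0 :=
  AnalyticAt.comp' (by simpa using Lg_an) (sq_an κ ε)

theorem RR_an (κ ε : ℂ) : AnalyticAt ℂ (RR κ ε) 0 := by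
  unfold RR
  exact (((Lg_sq_an κ ε⁻¹).fun_add (Lg_sq_an κ ε)).fun_neg.fun_div analyticAt_const (by norm_num)).cexp'

theorem RR_zero (κ ε : ℂ) : RR κ ε 0 = 1 := by simp [RR, Lg_zero]

theorem hc_an (b : ℂ) : AnalyticAt ℂ (hc b) 0 := by
  unfold hc
  refine AnalyticAt.cexp' ?_
  refine AnalyticAt.fun_div ?_ analyticAt_const (by norm_num)
  exact (analyticAt_const.fun_add (analyticAt_const.fun_mul (analyticAt_id.fun_pow 2))).clog (by simp)

theorem hc_zero (b : ℂ) : hc b 0 = 1 := by simp [hc]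

theorem quad_small (b : ℂ) : ∀ᶠ z in 𝓝 (0 : ℂ), ‖b * z ^ 2‖ < 1 := by
  have h : ContinuousAt (fun z : ℂ => ‖b * z ^ 2‖) 0 := by fun_prop
  have h0 : ‖b * (0 : ℂ) ^ 2‖ < 1 := by simp
  exact h.eventually (gt_mem_nhds h0)

theorem hc_sq {b z : ℂ} (h : ‖b * z ^ 2‖ < 1) : hc b z ^ 2 = 1 + b * z ^ 2 := by
  have hne : 1 + b * z ^ 2 ≠ 0 := by
    intro h0
    have : b * z ^ 2 = -1 := by linear_combination h0
    rw [this] at h; simp at h
  unfold hc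
  rw [← Complex.exp_nat_mul]
  have : ((2 : ℕ) : ℂ) * (Complex.log (1 + b * z ^ 2) / 2) = Complex.log (1 + b * z ^ 2) := by
    push_cast; ring
  rw [this, Complex.exp_log hne]

theorem hc_ne (b z : ℂ) : hc b z ≠ 0 := Complex.exp_ne_zero _

theorem hc_hasDerivAt {b z : ℂ} (h : ‖b * z ^ 2‖ < 1) : HasDerivAt (hc b) (b * z / hc b z) z := by
  have hs : 1 + b * z ^ 2 ∈ Complex.slitPlane := Complex.mem_slitPlane_of_norm_lt_one h
  have h1 : HasDerivAt (fun z : ℂ => 1 + b * z ^ 2) (b * (2 * z)) z := by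
    have := ((hasDerivAt_pow 2 z).const_mul b).const_add 1
    simpa using this
  have h2 := ((h1.clog hs).div_const 2).cexp
  have h3 : Complex.exp (Complex.log (1 + b * z ^ 2) / 2) * (b * (2 * z) / (1 + b * z ^ 2) / 2) =
      b * z / hc b z := by
    have e1 : Complex.exp (Complex.log (1 + b * z ^ 2) / 2) = hc b z := rfl
    rw [e1, ← hc_sq h]
    have := hc_ne b z
    field_simp
  rw [h3] at h2
  exact h2

/-- small arguments: `‖κ v²‖ < 1` -/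
theorem sm_ne {κ ε v : ℂ} (hε : ‖ε‖ = 1) (h : ‖κ * v ^ 2‖ < 1) : 1 - κ * (ε * v) ^ 2 ≠ 0 := by
  intro h0
  have h1 : ‖κ * (ε * v) ^ 2‖ = 1 := by
    have : κ * (ε * v) ^ 2 = 1 := by linear_combination -h0
    rw [this]; simp
  rw [mul_pow, norm_mul, norm_mul, norm_pow, hε, one_pow, one_mul, ← norm_mul] at h1
  linarith

section
variable {b κ ε : ℂ} {α : ℝ}

theorem RR_sq {v : ℂ} (hε : ‖ε‖ = 1) (h : ‖κ * v ^ 2‖ < 1) :
    RR κ ε v ^ 2 * ((1 - κ * (ε⁻¹ * v) ^ 2) * (1 - κ * (ε * v) ^ 2)) = 1 := by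
  have hε' : ‖ε⁻¹‖ = 1 := by rw [norm_inv, hε, inv_one]
  have h1 := sm_ne hε h
  have h2 := sm_ne hε' h
  have e1 : RR κ ε v ^ 2 = Complex.exp (-(Lg (κ * (ε⁻¹ * v) ^ 2) + Lg (κ * (ε * v) ^ 2))) := by
    unfold RR
    rw [← Complex.exp_nat_mul]
    congr 1
    push_cast; ring
  rw [e1, Complex.exp_neg, Complex.exp_add, exp_Lg h1, exp_Lg h2]
  have : (1 - κ * (ε⁻¹ * v) ^ 2) * (1 - κ * (ε * v) ^ 2) ≠ 0 := mul_ne_zero h2 h1
  exact inv_mul_cancel₀ this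

/-- `Hh² = 1 + b z²` -/
theorem Hh_sq {v : ℂ} (hε : ‖ε‖ = 1) (hb : b = (ε + ε⁻¹) ^ 2 * κ) (h : ‖κ * v ^ 2‖ < 1) :
    ((1 + κ * v ^ 2) * RR κ ε v) ^ 2 = 1 + b * (v * RR κ ε v) ^ 2 := by
  have h1 := RR_sq hε h
  have hε0 : ε ≠ 0 := by rw [← norm_ne_zero_iff, hε]; exact one_ne_zero
  have hi : ε * ε⁻¹ = 1 := mul_inv_cancel₀ hε0
  have e : (1 + κ * v ^ 2) ^ 2 - b * v ^ 2 = (1 - κ * (ε⁻¹ * v) ^ 2) * (1 - κ * (ε * v) ^ 2) := by
    rw [hb]
    linear_combination (-2 * κ * v ^ 2 - κ ^ 2 * v ^ 4 * (ε * ε⁻¹ + 1)) * hi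
  linear_combination h1 + RR κ ε v ^ 2 * e

/-- the conic along the orbit -/
theorem hc_Hh (hε : ‖ε‖ = 1) (hb : b = (ε + ε⁻¹) ^ 2 * κ) :
    ∀ᶠ v in 𝓝 (0 : ℂ), hc b (v * RR κ ε v) = (1 + κ * v ^ 2) * RR κ ε v := by
  have c1 : ContinuousAt (fun v : ℂ => v * RR κ ε v) 0 := continuousAt_id.mul (RR_an κ ε).continuousAt
  have t1 : Tendsto (fun v : ℂ => v * RR κ ε v) (𝓝 0) (𝓝 0) := by simpa using c1.tendsto
  have c2 : ContinuousAt (fun v : ℂ => (1 + κ * v ^ 2) * RR κ ε v) 0 := by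
    refine ContinuousAt.mul ?_ (RR_an κ ε).continuousAt
    fun_prop
  have c3 : ContinuousAt (fun v : ℂ => hc b (v * RR κ ε v)) 0 :=
    ContinuousAt.comp' (by simpa using (hc_an b).continuousAt) c1
  have c4 := c3.add c2
  have h4 : hc b (0 * RR κ ε 0) + (1 + κ * 0 ^ 2) * RR κ ε 0 ≠ 0 := by
    rw [zero_mul, hc_zero, RR_zero]; norm_num
  have h5 := c4.eventually_ne h4
  filter_upwards [h5, quad_small κ, t1.eventually (quad_small b)] with v h1 h2 h3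
  have e1 := hc_sq h3
  have e2 := Hh_sq hε hb h2
  have e3 : (hc b (v * RR κ ε v) - (1 + κ * v ^ 2) * RR κ ε v) *
      (hc b (v * RR κ ε v) + (1 + κ * v ^ 2) * RR κ ε v) = 0 := by
    linear_combination e1 - e2
  rcases mul_eq_zero.1 e3 with h | h
  · exact sub_eq_zero.1 h
  · exact absurd h h1

end

end Vale.Agent.P097.H809D
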