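import Vale.Agent.P097.H809D.Cnb

/-! # P097 / disc case / D1e : the explicit polygon is the critical polygon (helper809) -/

set_option linter.all false

open Filter Topology Metric

namespace Vale.Agent.P097.H809D

open H795.D1 (md df cr cu Num Adm rho)

section
variable {b κ ε : ℂ} {α : ℝ} {n p : ℕ} {β e : ℝ}

theorem GX_adm {f : ℂ → ℂ} (hf : AnalyticAt ℂ f 0) (h0 : f 0 = 0) (α : ℝ) (β : ℝ) {e : ℝ}
    (he : 0 < e) (n : ℕ) : ∀ᶠ X in 𝓝 (0 : ℂ), Adm n β e (GX f α X) := by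
  have h1 : ∀ᶠ z in 𝓝 (0 : ℂ), AnalyticAt ℂ f z := hf.eventually_analyticAt
  have h2 : ∀ᶠ z in 𝓝 (0 : ℂ), ‖f z‖ < e := by
    have hc : ContinuousAt (fun z => ‖f z‖) 0 := hf.continuousAt.norm
    exact hc.eventually (gt_mem_nhds (by show ‖f 0‖ < e; rw [h0]; simpa using he))
  obtain ⟨r, hr, h3⟩ := Metric.eventually_nhds_iff_ball.1 (h1.and h2)
  have hE : 0 < Real.exp β := Real.exp_pos β
  filter_upwards [ball_mem_nhds (0 : ℂ) (show 0 < r / Real.exp β by positivity)] with X hX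
  rw [mem_ball_zero_iff, lt_div_iff₀ hE] at hX
  have key : ∀ (j : ℕ), ∀ w ∈ ball (0 : ℂ) β,
      X * Complex.exp (Complex.I * ((α * (2 * j + 1) : ℝ) + w)) ∈ ball (0 : ℂ) r := by
    intro j w hw
    rw [mem_ball_zero_iff] at hw ⊢
    rw [norm_mul, Complex.norm_exp]
    have h4 : (Complex.I * (((α * (2 * j + 1) : ℝ) : ℂ) + w)).re ≤ β := by
      have h5 := (Complex.abs_im_le_norm w).trans_lt hw
      rw [abs_lt] at h5
      simp
      linarith
    calc ‖X‖ * Real.exp _ ≤ ‖X‖ * Real.exp β := by gcongr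
      _ < r := hX
  constructor
  · intro j _ w hw
    have h5 : DifferentiableAt ℂ f (X * Complex.exp (Complex.I * ((α * (2 * j + 1) : ℝ) + w))) :=
      (h3 _ (key j w hw)).1.differentiableAt
    exact (GX_hasDerivAt h5.hasDerivAt).differentiableAt.differentiableWithinAt
  · intro j _ w hw
    exact (h3 _ (key j w hw)).2.le

/-- the parameter change -/
noncomputable def XX (κ x : ℂ) : ℂ := x / (1 - κ * x ^ 2)

theorem XX_an (κ : ℂ) : AnalyticAt ℂ (XX κ) 0 := by
  unfold XX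
  refine analyticAt_id.fun_div ?_ (by simp)
  exact analyticAt_const.fun_sub (analyticAt_const.fun_mul (analyticAt_id.fun_pow 2))

theorem XX_zero (κ : ℂ) : XX κ 0 = 0 := by simp [XX]

theorem XX_tendsto (κ : ℂ) : Tendsto (XX κ) (𝓝 0) (𝓝 0) := by
  have := (XX_an κ).continuousAt.tendsto
  rwa [XX_zero] at this

theorem uu_an (κ ε : ℂ) (j : ℕ) : AnalyticAt ℂ (fun x => uu κ ε x j) 0 := by
  unfold uu
  refine analyticAt_const.fun_mul ?_
  have h1 : AnalyticAt ℂ (fun v : ℂ => Lg (κ * v ^ 2)) 0 := by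
    have := Lg_sq_an κ 1
    simpa using this
  exact h1.fun_sub (Lg_sq_an κ (ε ^ (2 * j)))

theorem uu_at_zero (κ ε : ℂ) (j : ℕ) : uu κ ε 0 j = 0 := by simp [uu]

theorem vv_tendsto (ε : ℂ) (j : ℕ) : Tendsto (fun x => vv ε x j) (𝓝 0) (𝓝 0) := by
  have h : Continuous fun x => vv ε x j := by unfold vv; fun_prop
  have := h.tendsto 0
  simpa [vv] using this

/-- the closing condition -/
theorem eps_pow (D : Dat b κ ε α) (hα : α = Real.pi * p / n) (hn : 0 < n) : ε ^ (2 * n) = 1 := by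
  rw [D.e, ← Complex.exp_nat_mul, hα]
  have hn' : (n : ℂ) ≠ 0 := by exact_mod_cast hn.ne'
  have : ((2 * n : ℕ) : ℂ) * (Complex.I * ((Real.pi * p / n : ℝ) : ℂ)) =
      (p : ℤ) * (2 * Real.pi * Complex.I) := by
    push_cast
    field_simp
  rw [this, Complex.exp_int_mul_two_pi_mul_I]

theorem uu_first (κ ε x : ℂ) : uu κ ε x 0 = 0 := by simp [uu]

theorem uu_last (h : ε ^ (2 * n) = 1) (κ x : ℂ) : uu κ ε x n = 0 := by simp [uu, h]

/-- the explicit polygon is the critical polygon -/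
theorem cu_eq (D : Dat b κ ε α) (hα : α = Real.pi * p / n) (hN : Num n α β e) (he : 0 < e) :
    ∀ᶠ x in 𝓝 (0 : ℂ), ∀ j ≤ n, uu κ ε x j = cu n α (GX (fun z => hc b z - 1) α (XX κ x)) j := by
  have hf : AnalyticAt ℂ (fun z => hc b z - 1) 0 := (hc_an b).fun_sub analyticAt_const
  have h1 := (XX_tendsto κ).eventually (GX_adm hf (by rw [hc_zero]; ring) α β he n)
  have h2 : ∀ᶠ x in 𝓝 (0 : ℂ), ∀ j ∈ Finset.range (n + 1), Gd b κ ε (vv ε x j) := by
    rw [Finset.eventually_all]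
    intro j _
    exact (vv_tendsto ε j).eventually (Gd_ev D)
  have h3 : ∀ᶠ x in 𝓝 (0 : ℂ), ∀ j ∈ Finset.range (n + 1), ‖uu κ ε x j‖ < rho n α β := by
    rw [Finset.eventually_all]
    intro j _
    have hc : ContinuousAt (fun x => ‖uu κ ε x j‖) 0 := (uu_an κ ε j).continuousAt.norm
    exact hc.eventually (gt_mem_nhds (by
      show ‖uu κ ε 0 j‖ < rho n α β
      rw [uu_at_zero]; simpa using H795.D1.rho_pos hN))
  filter_upwards [h1, h2, h3, quad_small κ] with x g1 g2 g3 g4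
  refine H795.D1.cu_unique hN g1 (uu_first κ ε x) (uu_last (eps_pow D hα hN.hn) κ x) ?_ ?_
  · intro i hi
    exact (g3 i (Finset.mem_range.2 (by omega))).le
  · intro j hj
    exact cr_uu D g4 (g2 j (Finset.mem_range.2 (by omega)))
      (g2 (j + 1) (Finset.mem_range.2 (by omega)))

/-- the first variation in the direction `g` -/
noncomputable def EE (f g : ℂ → ℂ) (n : ℕ) (α : ℝ) (X : ℂ) : ℂ :=
  ∑ j ∈ Finset.range n, GX g α X j (md (cu n α (GX f α X)) j) *
    Complex.sin (α + df (cu n α (GX f α X)) j)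

/-- the value of the variation at one side -/
noncomputable def QQ (g : ℂ → ℂ) (κ ε v : ℂ) : ℂ :=
  g (v * RR κ ε v) * ((1 + κ * v ^ 2) * RR κ ε v)

theorem EE_XX (D : Dat b κ ε α) (hα : α = Real.pi * p / n) (hN : Num n α β e) (he : 0 < e)
    (g : ℂ → ℂ) : ∀ᶠ x in 𝓝 (0 : ℂ), EE (fun z => hc b z - 1) g n α (XX κ x) =
      ∑ j ∈ Finset.range n, Complex.sin α * QQ g κ ε (vv ε x j) := by
  filter_upwards [cu_eq D hα hN he, quad_small κ] with x h1 h2
  unfold EE
  refine Finset.sum_congr rfl fun j hj => ?_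
  have hj' := Finset.mem_range.1 hj
  have e1 : md (cu n α (GX (fun z => hc b z - 1) α (XX κ x))) j = md (uu κ ε x) j := by
    unfold md; rw [h1 j hj'.le, h1 (j + 1) hj']
  have e2 : df (cu n α (GX (fun z => hc b z - 1) α (XX κ x))) j = df (uu κ ε x) j := by
    unfold df; rw [h1 j hj'.le, h1 (j + 1) hj']
  rw [e1, e2, sin_df D h2]
  have e3 : GX g α (XX κ x) j (md (uu κ ε x) j) = g (vv ε x j * RR κ ε (vv ε x j)) := by
    rw [← exp_md D h2 j]; rfl
  rw [e3]
  unfold QQ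
  ring

theorem QQ_an {g : ℂ → ℂ} (hg : AnalyticAt ℂ g 0) (κ ε : ℂ) : AnalyticAt ℂ (QQ g κ ε) 0 := by
  unfold QQ
  have h1 : AnalyticAt ℂ (fun v : ℂ => v * RR κ ε v) 0 := analyticAt_id.fun_mul (RR_an κ ε)
  refine AnalyticAt.fun_mul (AnalyticAt.comp' (by simpa using hg) h1) ?_
  exact (analyticAt_const.fun_add (analyticAt_const.fun_mul (analyticAt_id.fun_pow 2))).fun_mul
    (RR_an κ ε)

/-- vanishing coefficients `1, …, n` of the variation give the vanishing of the coefficient `n` of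
`QQ` -/
theorem QQ_zero (D : Dat b κ ε α) (hα : α = Real.pi * p / n) (hN : Num n α β e) (he : 0 < e)
    {g : ℂ → ℂ} (hg : AnalyticAt ℂ g 0) (hE : AnalyticAt ℂ (EE (fun z => hc b z - 1) g n α) 0)
    (h : ∀ m, 1 ≤ m → m ≤ n → PowerSeries.coeff m (TS (EE (fun z => hc b z - 1) g n α)) = 0) :
    PowerSeries.coeff n (TS (QQ g κ ε)) = 0 := by
  set E := EE (fun z => hc b z - 1) g n α with hEdef
  have hn := hN.hn
  -- vanishing of all coefficients up to `n` of `E - E 0`
  have hE0 : AnalyticAt ℂ (fun X => E X - E 0) 0 := hE.fun_sub analyticAt_const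
  have h1 : ∀ k ≤ n, PowerSeries.coeff k (TS fun X => E X - E 0) = 0 := by
    intro k hk
    rw [TS_sub hE analyticAt_const, TS_const, map_sub]
    rcases Nat.eq_zero_or_pos k with h0 | h0
    · subst h0
      rw [coeff_TS_zero, PowerSeries.coeff_C, if_pos rfl, sub_self]
    · rw [h k h0 hk, PowerSeries.coeff_C, if_neg (by omega), sub_self]
  have h2 := TS_comp_zero hE0 (XX_an κ) (XX_zero κ) h1 (k := n) le_rfl
  have hEX : AnalyticAt ℂ (fun x => E (XX κ x)) 0 :=
    AnalyticAt.comp' (by rwa [XX_zero]) (XX_an κ)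
  rw [TS_sub (f := fun x => E (XX κ x)) hEX analyticAt_const, TS_const, map_sub,
    PowerSeries.coeff_C, if_neg (by omega), sub_zero] at h2
  rw [TS_congr (EE_XX D hα hN he g)] at h2
  have hQ := QQ_an hg κ ε
  have hvan : ∀ j : ℕ, AnalyticAt ℂ (fun x => QQ g κ ε (vv ε x j)) 0 := by
    intro j
    have : AnalyticAt ℂ (fun x => vv ε x j) 0 := analyticAt_const.fun_mul analyticAt_id
    exact AnalyticAt.comp' (by simpa [vv] using hQ) this
  rw [TS_sum _ (fun j _ => analyticAt_const.fun_mul (hvan j)), map_sum] at h2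
  have h3 : ∀ j ∈ Finset.range n, PowerSeries.coeff n (TS fun x => Complex.sin α *
      QQ g κ ε (vv ε x j)) = Complex.sin α * ε ^ n * PowerSeries.coeff n (TS (QQ g κ ε)) := by
    intro j _
    rw [TS_mul (f := fun _ => Complex.sin α) analyticAt_const (hvan j), TS_const,
      PowerSeries.coeff_C_mul]
    have h4 := coeff_TS_scale hQ (ε ^ (2 * j + 1)) n
    have h5 : (ε ^ (2 * j + 1)) ^ n = ε ^ n := by
      rw [← pow_mul, show (2 * j + 1) * n = 2 * n * j + n by ring, pow_add, pow_mul,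
        eps_pow D hα hn, one_pow, one_mul]
    rw [h5] at h4
    rw [mul_assoc, ← h4]
    rfl
  rw [Finset.sum_congr rfl h3, Finset.sum_const, Finset.card_range, nsmul_eq_mul] at h2
  have hs : Complex.sin α ≠ 0 := by
    have := hN.hs.ne'
    rw [← Complex.ofReal_sin]
    exact_mod_cast this
  have hn' : (n : ℂ) ≠ 0 := by exact_mod_cast hn.ne'
  have hε : ε ^ n ≠ 0 := pow_ne_zero n D.ne
  have h6 := (mul_eq_zero.1 h2).resolve_left hn'
  exact (mul_eq_zero.1 h6).resolve_left (mul_ne_zero hs hε)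

end

end Vale.Agent.P097.H809D
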