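import Vale.Agent.P097.H809D.TS

/-! # P097 / disc case / D1e : Taylor series lemmas (helper809) -/

set_option linter.all false

open PowerSeries Filter Topology

namespace Vale.Agent.P097.H809D

theorem exists_factor {f : ℂ → ℂ} (hf : AnalyticAt ℂ f 0) (h0 : f 0 = 0) :
    ∃ g : ℂ → ℂ, AnalyticAt ℂ g 0 ∧ ∀ᶠ x in 𝓝 (0 : ℂ), f x = x * g x := by
  have h1 : ((1 : ℕ) : ℕ∞) ≤ analyticOrderAt f 0 := by
    rw [Nat.cast_one, ENat.one_le_iff_ne_zero, analyticOrderAt_ne_zero]
    exact ⟨hf, h0⟩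
  obtain ⟨g, hg, h2⟩ := (natCast_le_analyticOrderAt hf).1 h1
  refine ⟨g, hg, ?_⟩
  filter_upwards [h2] with x hx
  simpa using hx

theorem TS_X_mul {g : ℂ → ℂ} (hg : AnalyticAt ℂ g 0) :
    TS (fun x => x * g x) = PowerSeries.X * TS g := by
  rw [TS_mul (f := fun x => x) analyticAt_id hg, TS_id]

theorem TS_X_pow_mul {g : ℂ → ℂ} (hg : AnalyticAt ℂ g 0) (N : ℕ) :
    TS (fun x => x ^ N * g x) = PowerSeries.X ^ N * TS g := by
  rw [TS_mul (f := fun x => x ^ N) (analyticAt_id.fun_pow N) hg, TS_pow (f := fun x => x) analyticAt_id,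
    TS_id]

theorem exists_pow_factor {f : ℂ → ℂ} (hf : AnalyticAt ℂ f 0) (N : ℕ)
    (h : ∀ k < N, PowerSeries.coeff k (TS f) = 0) :
    ∃ g : ℂ → ℂ, AnalyticAt ℂ g 0 ∧ ∀ᶠ x in 𝓝 (0 : ℂ), f x = x ^ N * g x := by
  induction N with
  | zero => exact ⟨f, hf, Eventually.of_forall fun x => by simp⟩
  | succ N ih =>
    obtain ⟨g, hg, h1⟩ := ih fun k hk => h k (by omega)
    have h2 := h N (by omega)
    rw [TS_congr h1, TS_X_pow_mul hg] at h2
    have h3 : PowerSeries.coeff N (PowerSeries.X ^ N * TS g) = PowerSeries.coeff 0 (TS g) := by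
      have := PowerSeries.coeff_X_pow_mul (TS g) N 0
      simpa using this
    rw [h3, coeff_TS_zero] at h2
    obtain ⟨g', hg', h4⟩ := exists_factor hg h2
    refine ⟨g', hg', ?_⟩
    filter_upwards [h1, h4] with x hx hx'
    rw [hx, hx', pow_succ]; ring

theorem coeff_lt_of_factor {g : ℂ → ℂ} (hg : AnalyticAt ℂ g 0) {N k : ℕ} (hk : k < N) :
    PowerSeries.coeff k (TS fun x => x ^ N * g x) = 0 := by
  rw [TS_X_pow_mul hg]
  exact PowerSeries.coeff_of_lt_order k (by
    refine lt_of_lt_of_le (by exact_mod_cast hk) (PowerSeries.le_order _ N fun i hi => ?_)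
    rw [PowerSeries.coeff_X_pow_mul', if_neg (by
      have : i < N := by exact_mod_cast hi
      omega)])

/-- composition with a function vanishing at the origin keeps the vanishing order -/
theorem TS_comp_zero {f ζ : ℂ → ℂ} (hf : AnalyticAt ℂ f 0) (hζ : AnalyticAt ℂ ζ 0) (h0 : ζ 0 = 0)
    {N : ℕ} (h : ∀ k ≤ N, PowerSeries.coeff k (TS f) = 0) {k : ℕ} (hk : k ≤ N) :
    PowerSeries.coeff k (TS fun x => f (ζ x)) = 0 := by
  obtain ⟨g, hg, h1⟩ := exists_pow_factor hf (N + 1) fun k hk => h k (by omega)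
  obtain ⟨ζ₁, hζ₁, h2⟩ := exists_factor hζ h0
  have ht : Tendsto ζ (𝓝 0) (𝓝 0) := by
    have := hζ.continuousAt.tendsto
    rwa [h0] at this
  have hg' : AnalyticAt ℂ (fun x => g (ζ x)) 0 := AnalyticAt.comp' (by rwa [h0]) hζ
  have h3 : (fun x => f (ζ x)) =ᶠ[𝓝 0] fun x => x ^ (N + 1) * (ζ₁ x ^ (N + 1) * g (ζ x)) := by
    filter_upwards [ht.eventually h1, h2] with x hx hx'
    rw [hx]
    nth_rw 1 [hx']
    rw [mul_pow]; ring
  rw [TS_congr h3]
  exact coeff_lt_of_factor ((hζ₁.fun_pow (N + 1)).fun_mul hg') (by omega)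

/-! ### the expansions of `(1 + κ x²)⁻ⁱ` -/

noncomputable def Vs (κ : ℂ) (i : ℕ) : PowerSeries ℂ :=
  PowerSeries.mk fun n => if Even n then (-κ) ^ (n / 2) * ((i + n / 2 - 1).choose (n / 2) : ℂ) else 0

theorem Vs_zero (κ : ℂ) : Vs κ 0 = 1 := by
  ext n
  rw [Vs, PowerSeries.coeff_mk, PowerSeries.coeff_one]
  rcases Nat.eq_zero_or_pos n with h | h
  · subst h; simp
  · rw [if_neg (by omega : ¬ n = 0)]
    split_ifs with he
    · obtain ⟨m, rfl⟩ := he
      have h1 : (m + m) / 2 = m := by omega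
      rw [h1, Nat.choose_eq_zero_of_lt (by omega)]; simp
    · rfl

theorem Vs_succ (κ : ℂ) (i : ℕ) :
    (1 + PowerSeries.C κ * PowerSeries.X ^ 2) * Vs κ (i + 1) = Vs κ i := by
  ext n
  rw [add_mul, one_mul, map_add, mul_assoc, PowerSeries.coeff_C_mul, PowerSeries.coeff_X_pow_mul']
  simp only [Vs, PowerSeries.coeff_mk]
  rcases Nat.even_or_odd n with he | ho
  · obtain ⟨m, rfl⟩ := he
    have h1 : (m + m) / 2 = m := by omega
    have hev : Even (m + m) := ⟨m, rfl⟩
    simp only [if_pos hev, h1]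
    cases m with
    | zero => simp
    | succ m =>
      rw [if_pos (show 2 ≤ m + 1 + (m + 1) by omega)]
      have h2 : (m + 1 + (m + 1) - 2) = m + m := by omega
      have h3 : (m + m) / 2 = m := by omega
      rw [h2, if_pos (show Even (m + m) from ⟨m, rfl⟩), h3]
      have h4 : i + 1 + (m + 1) - 1 = (i + m) + 1 := by omega
      have h5 : i + 1 + m - 1 = i + m := by omega
      have h6 : i + (m + 1) - 1 = i + m := by omega
      rw [h4, h5, h6, Nat.choose_succ_succ]
      push_cast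
      rw [pow_succ]; ring
  · have h1 : ¬ Even n := Nat.not_even_iff_odd.2 ho
    rw [if_neg h1, if_neg h1, zero_add]
    split_ifs with h2 h3
    · exfalso
      apply h1
      obtain ⟨m, hm⟩ := h3
      exact ⟨m + 1, by omega⟩
    · simp
    · simp

theorem Vs_pow (κ : ℂ) (i : ℕ) :
    (1 + PowerSeries.C κ * PowerSeries.X ^ 2) ^ i * Vs κ i = 1 := by
  induction i with
  | zero => rw [Vs_zero]; simp
  | succ i ih => rw [pow_succ, mul_assoc, Vs_succ, ih]

theorem TS_quad (κ : ℂ) : TS (fun x => 1 + κ * x ^ 2) = 1 + PowerSeries.C κ * PowerSeries.X ^ 2 := by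
  rw [TS_add (f := fun _ => 1) (g := fun x => κ * x ^ 2) analyticAt_const
    (analyticAt_const.fun_mul (analyticAt_id.fun_pow 2)),
    TS_mul (f := fun _ => κ) (g := fun x => x ^ 2) analyticAt_const (analyticAt_id.fun_pow 2),
    TS_pow (f := fun x => x) analyticAt_id, TS_id, TS_const, TS_const, map_one]

theorem quad_ne (κ : ℂ) : ∀ᶠ x in 𝓝 (0 : ℂ), 1 + κ * x ^ 2 ≠ 0 := by
  have h : ContinuousAt (fun x : ℂ => 1 + κ * x ^ 2) 0 := by fun_prop
  exact h.eventually_ne (by simp)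

theorem jk_an (κ : ℂ) : AnalyticAt ℂ (fun x : ℂ => x / (1 + κ * x ^ 2)) 0 := by
  refine analyticAt_id.fun_div ?_ (by simp)
  exact analyticAt_const.fun_add (analyticAt_const.fun_mul (analyticAt_id.fun_pow 2))

theorem TS_jk (κ : ℂ) (i : ℕ) :
    TS (fun x => (x / (1 + κ * x ^ 2)) ^ i) = PowerSeries.X ^ i * Vs κ i := by
  have ha : AnalyticAt ℂ (fun x : ℂ => (x / (1 + κ * x ^ 2)) ^ i) 0 := (jk_an κ).fun_pow i
  have hb : AnalyticAt ℂ (fun x : ℂ => 1 + κ * x ^ 2) 0 :=
    analyticAt_const.fun_add (analyticAt_const.fun_mul (analyticAt_id.fun_pow 2))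
  have h1 : TS (fun x => (x / (1 + κ * x ^ 2)) ^ i) *
      (1 + PowerSeries.C κ * PowerSeries.X ^ 2) ^ i = PowerSeries.X ^ i := by
    rw [← TS_quad, ← TS_pow hb, ← TS_mul ha (hb.fun_pow i)]
    have : (fun x : ℂ => (x / (1 + κ * x ^ 2)) ^ i * (1 + κ * x ^ 2) ^ i) =ᶠ[𝓝 0] fun x => x ^ i := by
      filter_upwards [quad_ne κ] with x hx
      rw [← mul_pow, div_mul_cancel₀ _ hx]
    rw [TS_congr this, TS_pow (f := fun x => x) analyticAt_id, TS_id]
  have h2 := congrArg (fun t => t * Vs κ i) h1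
  simp only [mul_assoc, Vs_pow, mul_one] at h2
  exact h2

/-- the coefficients of `∑ G i u ^ i`, `u = x / (1 + κ x²)` -/
theorem coeff_sum_jk (κ : ℂ) (G : ℕ → ℂ) {n : ℕ} (hn : 1 ≤ n) :
    ∑ i ∈ Finset.range (n + 1), G i * PowerSeries.coeff n (PowerSeries.X ^ i * Vs κ i) =
      ∑ j ∈ (Finset.range n).filter (fun j => 2 * j < n),
        G (n - 2 * j) * ((-1) ^ j * ((n - j - 1).choose j : ℂ)) * κ ^ j := by
  classical
  have h1 : ∀ i ∈ Finset.range (n + 1), G i * PowerSeries.coeff n (PowerSeries.X ^ i * Vs κ i) =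
      if Even (n - i) then G i * ((-κ) ^ ((n - i) / 2) *
        ((i + (n - i) / 2 - 1).choose ((n - i) / 2) : ℂ)) else 0 := by
    intro i hi
    have hi' : i ≤ n := Nat.lt_succ_iff.1 (Finset.mem_range.1 hi)
    rw [PowerSeries.coeff_X_pow_mul', if_pos hi', Vs, PowerSeries.coeff_mk]
    split_ifs <;> simp
  rw [Finset.sum_congr rfl h1, ← Finset.sum_filter]
  symm
  have hsub : ((Finset.range n).filter (fun j => 2 * j < n)).image (fun j => n - 2 * j) ⊆
      (Finset.range (n + 1)).filter (fun i => Even (n - i)) := by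
    intro i hi
    obtain ⟨j, hj, rfl⟩ := Finset.mem_image.1 hi
    rw [Finset.mem_filter, Finset.mem_range] at hj
    rw [Finset.mem_filter, Finset.mem_range]
    exact ⟨by omega, ⟨j, by omega⟩⟩
  rw [← Finset.sum_subset hsub]
  · rw [Finset.sum_image]
    · refine Finset.sum_congr rfl fun j hj => ?_
      rw [Finset.mem_filter, Finset.mem_range] at hj
      have h2 : (n - (n - 2 * j)) / 2 = j := by omega
      have h3 : n - 2 * j + j - 1 = n - j - 1 := by omega
      rw [h2, h3, neg_pow κ j]; ring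
    · intro i hi j hj hij
      rw [Finset.mem_coe, Finset.mem_filter, Finset.mem_range] at hi hj
      simp only at hij
      omega
  · intro i hi hni
    rw [Finset.mem_filter, Finset.mem_range] at hi
    obtain ⟨m, hm⟩ := hi.2
    have hi0 : i = 0 := by
      by_contra hne
      apply hni
      rw [Finset.mem_image]
      exact ⟨m, by rw [Finset.mem_filter, Finset.mem_range]; omega, by omega⟩
    subst hi0
    have h2 : (n - 0) / 2 = m := by omega
    rw [h2, Nat.choose_eq_zero_of_lt (by omega)]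
    simp

end Vale.Agent.P097.H809D
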